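import Vale.Agent.P146.Div.Guerra.Theta
import Vale.Agent.P146.Div.Statements
import Vale.Agent.P146.Div.Kernel
import Vale.Agent.P157.Parisi.Site.Casc
import Vale.Agent.P157.Parisi.Main.Mass
import Vale.Agent.P168.Upper.Limit

/-!
The limits of the brackets along the cascade filter and the bound at a fixed angle.
-/

noncomputable section

open MeasureTheory ProbabilityTheory Filter
open scoped BigOperators Topology

namespace Vale.Agent.P146.Div.Guerra

open Vale.Agent.P157.Parisi (Path weight)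
open Vale.Agent.P157.Parisi.Site (sum_shape_one sum_shape_two)
open Vale.Agent.P157.Parisi.Up (inc sum_inc_lt)
open Vale.Agent.P168 (CascTree Shape shapeProb shapeInit extProb cascFilter)
open Vale.Agent.P168.Cascade (Leaf GoodTree IsTree isTree_of_prob eventually_pos)

variable {n k : ℕ} {ξ : Path} {nn : Fin ξ.r → ℕ} (β : ℝ) (m : ℕ) (t θ : ℝ)

lemma abs_stateMean_le {Φ : Cfg n → (Fin k → St ξ nn n) → ℝ} (hΦ : ∀ x, Tame fun g => Φ g x)
    {B : Cfg n → ℝ} (hBi : Integrable B (gauss (Edge n))) (hB0 : ∀ g, 0 ≤ B g)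
    (hB : ∀ g x, |Φ g x| ≤ B g) :
    |stateMean ξ nn β m t θ Φ| ≤ ∫ g, B g ∂gauss (Edge n) := by
  have h := norm_integral_le_of_norm_le (f := avg β m t θ Φ) (g := fun ω : Rnd ξ nn n => B ω.1)
    (μ := law ξ nn n) (hBi.comp_fst _)
    (ae_goodW.mono fun ω hω => (Real.norm_eq_abs _).trans_le
      (abs_avg_le hω β m t θ (hB ω.1) (hB0 ω.1)))
  rw [Real.norm_eq_abs, ← stateMean_eq β m t θ hΦ, law, integral_fun_fst B] at h
  simpa using h

lemma stateMean_sum {α : Type*} (S : Finset α) {Φ : α → Cfg n → (Fin k → St ξ nn n) → ℝ}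
    (hΦ : ∀ a ∈ S, ∀ x, Tame fun g => Φ a g x) :
    stateMean ξ nn β m t θ (fun g x => ∑ a ∈ S, Φ a g x) =
      ∑ a ∈ S, stateMean ξ nn β m t θ (Φ a) := by
  rw [stateMean_eq β m t θ fun x => Tame.sum S fun a ha => hΦ a ha x,
    Finset.sum_congr rfl fun a ha => stateMean_eq β m t θ (hΦ a ha),
    ← integral_finsetSum S fun a ha => integrable_avg β m t θ (hΦ a ha)]
  refine integral_congr_ae (.of_forall fun ω => ?_)
  simp only [avg, Finset.mul_sum]
  exact Finset.sum_comm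

lemma gapSq_nonneg : 0 ≤ gapSq n ξ nn β m t θ := by
  show 0 ≤ stateMean ξ nn β m t θ (fun g (x : Fin 2 → St ξ nn n) =>
    (bform 0 g (x 0).1 (x 1).1 - qm ξ nn (x 0).2 (x 1).2) ^ 2)
  rw [stateMean_eq β m t θ fun x => Tame.pow (Tame.sub (tame_bform' 0 _ _) (Tame.const _)) 2]
  exact integral_nonneg_of_ae (ae_goodW.mono fun ω hω => Finset.sum_nonneg fun x _ =>
    mul_nonneg (prod_wgt_mem hω β m t θ x).1 (sq_nonneg _))

lemma gapSq_le : gapSq n ξ nn β m t θ ≤ 4 := by
  have h : |stateMean ξ nn β m t θ (fun g (x : Fin 2 → St ξ nn n) =>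
      (bform 0 g (x 0).1 (x 1).1 - qm ξ nn (x 0).2 (x 1).2) ^ 2)| ≤ 4 := by
    refine (abs_stateMean_le β m t θ
      (fun x => Tame.pow (Tame.sub (tame_bform' 0 _ _) (Tame.const _)) 2)
      (integrable_const (4 : ℝ)) (fun _ => by norm_num) fun g x => ?_).trans (le_of_eq (by simp))
    have h1 := abs_le.1 (abs_bform_zero_le g (x 0).1 (x 1).1)
    have h2 := qm_mem ξ nn (x 0).2 (x 1).2
    rw [abs_of_nonneg (sq_nonneg _)]
    nlinarith [h1.1, h1.2, h2.1, h2.2]
  exact (le_abs_self _).trans h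

/-- Limits of the laws of the trees of replicas. -/
theorem tendsto_stateMean_shape (hS : ShapeLimitStmt) (ξ : Path) (n k : ℕ)
    (G : Shape ξ.r k → ℝ) :
    Tendsto (fun nn => stateMean (n := n) ξ nn β m t θ fun _ x => G (leafShape nn fun a => (x a).2))
      (cascFilter ξ.r) (𝓝 (∑ v, shapeProb ξ.m k v * G v)) := by
  set L := ∑ v, shapeProb ξ.m k v * G v with hL
  have hb : ∀ (nn : Fin ξ.r → ℕ) (g : Cfg n),
      |shapeMean ξ nn (interpH β m t θ g) (β * Real.cos θ) G| ≤ |L| + ∑ v, |G v| := by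
    intro nn g
    refine le_trans ?_ (le_add_of_nonneg_left (abs_nonneg L))
    rw [← Real.norm_eq_abs]
    refine (norm_integral_le_of_norm_le_const (C := ∑ v, |G v|) (ae_goodZ.mono fun z hz => ?_)).trans
      (le_of_eq (by simp))
    rw [Real.norm_eq_abs]
    exact abs_avg_le (ω := (g, z)) hz β m t θ
      (Φ := fun _ (x : Fin k → St ξ nn n) => G (leafShape nn fun a => (x a).2))
      (fun x => Finset.single_le_sum (f := fun v => |G v|) (fun v _ => abs_nonneg _)
        (Finset.mem_univ _)) (Finset.sum_nonneg fun v _ => abs_nonneg _)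
  have h := Vale.Agent.P168.Upper.tendsto_integral_cascFilter (gauss (Edge n))
    (fun nn g => shapeMean ξ nn (interpH β m t θ g) (β * Real.cos θ) G) (fun _ => L)
    (|L| + ∑ v, |G v|) (fun nn => ?_) measurable_const hb
    (fun _ => le_add_of_nonneg_right (Finset.sum_nonneg fun v _ => abs_nonneg _))
    (fun g => hS ξ n k _ _ G)
  · rw [integral_const, probReal_univ, one_smul] at h
    exact h
  · exact ((measurable_avg (ξ := ξ) (nn := nn) (n := n) β m t θ
      (Φ := fun _ (x : Fin k → St ξ nn n) => G (leafShape nn fun a => (x a).2))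
      fun _ => Tame.const _).stronglyMeasurable.integral_prod_right').measurable

/-- The mean square of the path under its weights. -/
def qq (ξ : Path) : ℝ := ∑ p, weight ξ.m p * ξ.q p ^ 2

lemma tendsto_qSq (hS : ShapeLimitStmt) (ξ : Path) (n : ℕ) :
    Tendsto (fun nn => stateMean (n := n) ξ nn β m t θ (qSq (ξ := ξ) (nn := nn)))
      (cascFilter ξ.r) (𝓝 (qq ξ)) := by
  have h := tendsto_stateMean_shape β m t θ hS ξ n 2 fun v => ξ.q (v 0 1) ^ 2
  rw [sum_shape_two ξ.m fun p => ξ.q p ^ 2] at h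
  exact h

/-! ### The leading terms -/

/-- The leading term of a pair of forms on one replica. -/
def lead1 (ξ : Path) (i j : ℕ) : ℝ :=
  ∑ v : Shape ξ.r 1, shapeProb ξ.m 1 v *
    (kern ξ.m (fun p => hat ξ p ^ (i + 1)) v 0 0 * kern ξ.m (fun p => hat ξ p ^ (j + 1)) v 0 0)

/-- The leading term of a pair of forms on two replicas. -/
def lead2 (ξ : Path) (i j : ℕ) : ℝ :=
  ∑ v : Shape ξ.r 2, shapeProb ξ.m 2 v *
    (kern ξ.m (fun p => hat ξ p ^ (i + 1)) v 0 1 * kern ξ.m (fun p => hat ξ p ^ (j + 1)) v 1 0)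

theorem lead_eq (ξ : Path) (i j : ℕ) :
    lead1 ξ i j - lead2 ξ i j = powDiag ξ (i + j + 2) := by
  set v₀ : Shape ξ.r 1 := fun _ _ => Fin.last ξ.r with hv₀
  have hv : IsTree v₀ := ⟨fun _ => rfl, fun _ _ => rfl, fun _ _ _ => min_le_left _ _⟩
  set F : Fin (ξ.r + 1) → ℝ := fun p => hat ξ p ^ (i + 1)
  set F' : Fin (ξ.r + 1) → ℝ := fun p => hat ξ p ^ (j + 1)
  have hk := kernel ξ.r 1 ξ.m ξ.isPath.pos F F' v₀ hv 0 0
  have h1 : shapeProb ξ.m 1 v₀ = 1 := by simp [shapeProb, extProb, hv₀]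
  set G : Shape ξ.r 2 → ℝ := fun v' => kern ξ.m F v' 0 1 * kern ξ.m F' v' 1 0
  have h2 : ∑ v' : Shape ξ.r 2, shapeProb ξ.m 2 v' * G v' =
      ∑ v' ∈ Finset.univ.filter (fun v' => shapeInit v' = v₀), shapeProb ξ.m 2 v' * G v' := by
    rw [← Finset.sum_fiberwise Finset.univ (shapeInit (r := ξ.r) (n := 1))]
    have e : ∀ u : Shape ξ.r 1, ∑ v' ∈ Finset.univ.filter (fun v' => shapeInit v' = u),
        shapeProb ξ.m 2 v' * G v' = shapeProb ξ.m 1 u *
          ∑ v' ∈ Finset.univ.filter (fun v' => shapeInit v' = u), extProb ξ.m v' * G v' := by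
      intro u
      rw [Finset.mul_sum]
      refine Finset.sum_congr rfl fun v' hv' => ?_
      show shapeProb ξ.m 1 (shapeInit v') * extProb ξ.m v' * G v' = _
      rw [(Finset.mem_filter.1 hv').2, mul_assoc]
    rw [Finset.sum_congr rfl fun u _ => e u, sum_shape_one, e v₀, h1, one_mul]
  have hF : (fun p => F p * F' p) = fun p => hat ξ p ^ (i + j + 2) := by
    funext p
    simp only [F, F', ← pow_add]
    congr 1
    omega
  have hl1 : lead1 ξ i j = kern ξ.m F v₀ 0 0 * kern ξ.m F' v₀ 0 0 := sum_shape_one ξ.m _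
  rw [h1, one_mul, one_mul, hF] at hk
  simp only [Fin.sum_univ_one, Nat.cast_one, one_mul] at hk
  have hl2 : lead2 ξ i j = ∑ v' : Shape ξ.r 2, shapeProb ξ.m 2 v' * G v' := rfl
  rw [hl1, hl2, h2]
  have hd : kern ξ.m (fun p => hat ξ p ^ (i + j + 2)) v₀ 0 0 = powDiag ξ (i + j + 2) := if_pos rfl
  rw [hd] at hk
  exact hk.symm

lemma hat_step (ξ : Path) (p : Fin ξ.r) :
    hat ξ p.castSucc = hat ξ p.succ + ξ.m p * inc ξ.q p := by
  have h : ∀ i : Fin ξ.r,
      (if p.castSucc.val ≤ i.val then ξ.m i * (ξ.q i.succ - ξ.q i.castSucc) else 0) =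
        (if p.succ.val ≤ i.val then ξ.m i * (ξ.q i.succ - ξ.q i.castSucc) else 0) +
          if i = p then ξ.m i * (ξ.q i.succ - ξ.q i.castSucc) else 0 := by
    intro i
    simp only [Fin.val_succ, Fin.val_castSucc, Fin.ext_iff]
    split_ifs <;> first | omega | simp
  simp only [hat, inc, h, Finset.sum_add_distrib, Finset.sum_ite_eq', Finset.mem_univ, if_true]
  ring

lemma kOff_hat {ξ : Path} (h0 : ξ.q 0 = 0) (p : Fin (ξ.r + 1)) :
    kOff ξ.m (fun p => hat ξ p ^ 1) p = ξ.q p := by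
  rw [← sum_inc_lt ξ.q p, h0, zero_add, kOff]
  refine Finset.sum_congr rfl fun i _ => ?_
  split_ifs
  · have := (ξ.isPath.pos i).ne'
    rw [pow_one, pow_one, hat_step]
    field_simp
    ring
  · rfl

lemma powDiag_two {ξ : Path} (h0 : ξ.q 0 = 0) : powDiag ξ 2 = 1 - qq ξ := by
  have h := lead_eq ξ 0 0
  have hd : kDiag ξ.m (fun p => hat ξ p ^ (0 + 1)) = 1 := by
    have hl : hat ξ (Fin.last ξ.r) = 1 - ξ.q (Fin.last ξ.r) := by
      rw [hat, Finset.sum_eq_zero fun i _ => if_neg (by rw [Fin.val_last]; exact not_le.2 i.isLt),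
        add_zero]
    rw [kDiag, kOff_hat h0, pow_one, hl]
    ring
  have h1 : lead1 ξ 0 0 = 1 := by
    rw [lead1, sum_shape_one]
    simp only [kern, if_pos, hd, mul_one]
  have h2 : lead2 ξ 0 0 = qq ξ := by
    rw [lead2, qq, ← sum_shape_two ξ.m fun p => ξ.q p ^ 2]
    refine Finset.sum_congr rfl fun v _ => ?_
    by_cases hv : shapeProb ξ.m 2 v = 0
    · simp [hv]
    · rw [kern, kern, if_neg (by decide), if_neg (by decide), zero_add, kOff_hat h0,
        kOff_hat h0, (isTree_of_prob hv).symm 1 0, sq]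
  rw [h1, h2] at h
  exact h.symm

/-! ### The brackets -/

/-- The bracket of order `m`. -/
def bracket (ξ : Path) (nn : Fin ξ.r → ℕ) (n : ℕ) : ℝ :=
  stateMean ξ nn β m t θ (cr1 ξ nn m (n := n)) - stateMean ξ nn β m t θ (cr2 ξ nn m (n := n))

variable {β m t θ}

/-- The bracket at orders at least two. -/
theorem bracket_of_rec (hR : RecStmt) (hβ : 0 < β) (hm : 2 ≤ m) :
    ∃ A, 0 ≤ A ∧ ∀ ξ : Path, ξ.q 0 = 0 → ∀ t : ℝ, |t| ≤ 1 → ∀ ε > 0, ∀ᶠ n : ℕ in atTop,
      ∀ θ ∈ Set.Icc (0 : ℝ) (Real.pi / 2), ∀ᶠ nn in cascFilter ξ.r,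
        |bracket β m t θ ξ nn n - (m : ℝ) * (β * Real.sin θ) ^ (m - 1) * powDiag ξ (m + 1)| ≤
          A * (|Real.sin θ| * Real.sqrt (gapSq n ξ nn β m t θ) + |t|) + ε := by
  have hm1 : 1 ≤ m := by omega
  have hR1 : ∀ i ∈ Finset.range m, _ := fun i hi =>
    hR β hβ m hm1 1 [(i, 0, 0), (m - 1 - i, 0, 0)]
      (by have := Finset.mem_range.1 hi; simp; omega)
  have hR2 : ∀ i ∈ Finset.range m, _ := fun i hi =>
    hR β hβ m hm1 2 [(i, 0, 1), (m - 1 - i, 1, 0)]
      (by have := Finset.mem_range.1 hi; simp; omega)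
  choose! C1 hC1 using hR1
  choose! C2 hC2 using hR2
  refine ⟨∑ i ∈ Finset.range m, (|C1 i| + |C2 i|), Finset.sum_nonneg fun i _ => by positivity,
    fun ξ hξ t ht ε hε => ?_⟩
  set e := ε / (2 * (m : ℝ)) with he
  have hm0 : (0 : ℝ) < m := by exact_mod_cast hm1
  have he0 : 0 < e := by positivity
  filter_upwards [(eventually_all_finset _).2 fun i hi => hC1 i hi ξ hξ t ht e he0,
    (eventually_all_finset _).2 fun i hi => hC2 i hi ξ hξ t ht e he0] with n h1 h2
  intro θ hθ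
  filter_upwards [(eventually_all_finset _).2 fun i hi => h1 i hi θ hθ,
    (eventually_all_finset _).2 fun i hi => h2 i hi θ hθ] with nn g1 g2
  set s := |Real.sin θ| * Real.sqrt (gapSq n ξ nn β m t θ) + |t| with hs
  have hs0 : 0 ≤ s := by positivity
  set P := (β * Real.sin θ) ^ (m - 1) with hP
  set a1 : ℕ → ℝ := fun i => stateMean ξ nn β m t θ
    (fun g (x : Fin 1 → St ξ nn n) => bform i g (x 0).1 (x 0).1 * bform (m - 1 - i) g (x 0).1 (x 0).1)
  set a2 : ℕ → ℝ := fun i => stateMean ξ nn β m t θ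
    (fun g (x : Fin 2 → St ξ nn n) => bform i g (x 0).1 (x 1).1 * bform (m - 1 - i) g (x 1).1 (x 0).1)
  have b1 : ∀ i ∈ Finset.range m, |a1 i - P * lead1 ξ i (m - 1 - i)| ≤ |C1 i| * s + e := by
    intro i hi
    have h := g1 i hi
    simp only [List.map_cons, List.map_nil, List.prod_cons, List.prod_nil, mul_one,
      List.sum_cons, List.sum_nil, add_zero,
      show i + (m - 1 - i) = m - 1 by have := Finset.mem_range.1 hi; omega] at h
    exact h.trans (add_le_add_left (mul_le_mul_of_nonneg_right (le_abs_self _) hs0) _ |>.trans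
      (le_of_eq rfl))
  have b2 : ∀ i ∈ Finset.range m, |a2 i - P * lead2 ξ i (m - 1 - i)| ≤ |C2 i| * s + e := by
    intro i hi
    have h := g2 i hi
    simp only [List.map_cons, List.map_nil, List.prod_cons, List.prod_nil, mul_one,
      List.sum_cons, List.sum_nil, add_zero,
      show i + (m - 1 - i) = m - 1 by have := Finset.mem_range.1 hi; omega] at h
    exact h.trans (add_le_add_left (mul_le_mul_of_nonneg_right (le_abs_self _) hs0) _ |>.trans
      (le_of_eq rfl))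
  have e1 : stateMean ξ nn β m t θ (cr1 ξ nn m (n := n)) = ∑ i ∈ Finset.range m, a1 i :=
    stateMean_sum β m t θ (Finset.range m) (Φ := fun i g (x : Fin 1 → St ξ nn n) =>
      bform i g (x 0).1 (x 0).1 * bform (m - 1 - i) g (x 0).1 (x 0).1) fun i _ x => Tame.mul (tame_bform' i _ _) (tame_bform' _ _ _)
  have e2 : stateMean ξ nn β m t θ (cr2 ξ nn m (n := n)) = ∑ i ∈ Finset.range m, a2 i :=
    stateMean_sum β m t θ (Finset.range m) (Φ := fun i g (x : Fin 2 → St ξ nn n) =>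
      bform i g (x 0).1 (x 1).1 * bform (m - 1 - i) g (x 1).1 (x 0).1) fun i _ x => Tame.mul (tame_bform' i _ _) (tame_bform' _ _ _)
  have e3 : (m : ℝ) * P * powDiag ξ (m + 1) =
      ∑ i ∈ Finset.range m, (P * lead1 ξ i (m - 1 - i) - P * lead2 ξ i (m - 1 - i)) := by
    rw [Finset.sum_congr rfl fun i hi => show
      P * lead1 ξ i (m - 1 - i) - P * lead2 ξ i (m - 1 - i) = P * powDiag ξ (m + 1) by
        rw [← mul_sub, lead_eq,
          show i + (m - 1 - i) + 2 = m + 1 by have := Finset.mem_range.1 hi; omega]]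
    simp; ring
  rw [bracket, e1, e2, e3, ← Finset.sum_sub_distrib, ← Finset.sum_sub_distrib]
  refine (Finset.abs_sum_le_sum_abs _ _).trans ?_
  calc ∑ i ∈ Finset.range m,
        |a1 i - a2 i - (P * lead1 ξ i (m - 1 - i) - P * lead2 ξ i (m - 1 - i))|
      ≤ ∑ i ∈ Finset.range m, ((|C1 i| + |C2 i|) * s + 2 * e) := Finset.sum_le_sum fun i hi => by
        have := b1 i hi
        have := b2 i hi
        rw [sub_sub_sub_comm]
        refine (abs_sub _ _).trans ?_
        linarith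
    _ = (∑ i ∈ Finset.range m, (|C1 i| + |C2 i|)) * s + ε := by
        rw [Finset.sum_add_distrib, ← Finset.sum_mul, he]
        simp only [Finset.sum_const, Finset.card_range, nsmul_eq_mul]
        field_simp

variable (β t θ)

/-- The bracket at order one. -/
lemma bracket_one (hn : n ≠ 0) :
    bracket β 1 t θ ξ nn n = 1 - stateMean ξ nn β 1 t θ (ovl ξ nn (n := n)) ∨
      ∃ i, ¬ 0 < nn i := by
  by_cases hnn : ∀ i, 0 < nn i
  · left
    have h1 : ∀ g (x : Fin 1 → St ξ nn n), cr1 ξ nn 1 g x = 1 := fun g x => by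
      simp [cr1, cross, bform_zero_self hn]
    have h2 : cr2 ξ nn 1 (n := n) = ovl ξ nn := by
      funext g x
      simp [cr2, ovl, cross, sq, bform_symm 0 g (x 1).1 (x 0).1]
    rw [bracket, h2, stateMean_eq β 1 t θ (tame_cr1 ξ nn 1)]
    congr 1
    rw [integral_congr_ae (ae_goodW.mono fun ω hω => show avg β 1 t θ (cr1 ξ nn 1) ω = 1 by
      simp only [avg, h1, mul_one, ← Fintype.prod_sum, sum_wgt hnn hω, Finset.prod_const_one])]
    simp
  · right; push Not at hnn; simpa using hnn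

lemma abs_ovl_sub_qSq_le {lam : ℝ} (hl : 0 < lam) :
    |stateMean ξ nn β m t θ (ovl ξ nn (n := n)) -
        stateMean ξ nn β m t θ (qSq (ξ := ξ) (nn := nn) (n := n))| ≤
      lam * gapSq n ξ nn β m t θ + 1 / lam := by
  rw [stateMean_eq β m t θ (tame_ovl ξ nn), stateMean_eq β m t θ (tame_qSq (ξ := ξ) (nn := nn))]
  have hT : ∀ x : Fin 2 → St ξ nn n, Tame fun g =>
      (bform 0 g (x 0).1 (x 1).1 - qm ξ nn (x 0).2 (x 1).2) ^ 2 := fun x =>
    Tame.pow (Tame.sub (tame_bform' 0 _ _) (Tame.const _)) 2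
  have eg : gapSq n ξ nn β m t θ = ∫ ω, avg β m t θ (fun g (x : Fin 2 → St ξ nn n) =>
      (bform 0 g (x 0).1 (x 1).1 - qm ξ nn (x 0).2 (x 1).2) ^ 2) ω ∂law ξ nn n :=
    stateMean_eq β m t θ hT
  have i1 := integrable_avg (n := n) β m t θ (tame_ovl ξ nn)
  have i2 := integrable_avg (n := n) β m t θ (tame_qSq (ξ := ξ) (nn := nn))
  have i3 := (integrable_avg (n := n) β m t θ hT).const_mul lam
  have hb := norm_integral_le_of_norm_le (f := fun ω => avg β m t θ (ovl ξ nn) ω -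
    avg β m t θ (qSq (ξ := ξ) (nn := nn)) ω) (μ := law ξ nn n)
    (i3.fun_add (integrable_const (1 / lam))) (ae_goodW.mono fun ω hω => ?_)
  · rw [Real.norm_eq_abs, integral_sub i1 i2, integral_add i3 (integrable_const _),
      integral_const_mul, integral_const, probReal_univ, one_smul, ← eg] at hb
    exact hb
  · rw [Real.norm_eq_abs]
    simp only [avg, ← Finset.sum_sub_distrib, ← mul_sub]
    refine (Finset.abs_sum_le_sum_abs _ _).trans ?_
    calc ∑ x : Fin 2 → St ξ nn n, |(∏ a, wgt β m t θ ω (x a)) *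
          (ovl ξ nn ω.1 x - qSq (ξ := ξ) (nn := nn) ω.1 x)|
        ≤ ∑ x : Fin 2 → St ξ nn n, (lam * ((∏ a, wgt β m t θ ω (x a)) *
            (bform 0 ω.1 (x 0).1 (x 1).1 - qm ξ nn (x 0).2 (x 1).2) ^ 2) +
              1 / lam * ∏ a, wgt β m t θ ω (x a)) := Finset.sum_le_sum fun x _ => by
          obtain ⟨hp, -⟩ := prod_wgt_mem hω β m t θ x
          rw [abs_mul, abs_of_nonneg hp]
          simp only [ovl, qSq]
          set R := bform 0 ω.1 (x 0).1 (x 1).1
          set q := qm ξ nn (x 0).2 (x 1).2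
          have h1 := abs_le.1 (abs_bform_zero_le ω.1 (x 0).1 (x 1).1)
          have h2 := qm_mem ξ nn (x 0).2 (x 1).2
          have h3 : |R ^ 2 - q ^ 2| ≤ 2 * |R - q| := by
            rw [show R ^ 2 - q ^ 2 = (R + q) * (R - q) by ring, abs_mul]
            refine mul_le_mul_of_nonneg_right (abs_le.2 ⟨?_, ?_⟩) (abs_nonneg _) <;>
              linarith [h1.1, h1.2, h2.1, h2.2]
          have h4 : 2 * |R - q| ≤ lam * (R - q) ^ 2 + 1 / lam := by
            rw [← sq_abs (R - q)]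
            have h5 : 0 ≤ (lam * |R - q| - 1) ^ 2 / lam := div_nonneg (sq_nonneg _) hl.le
            have e : (lam * |R - q| - 1) ^ 2 / lam =
                lam * |R - q| ^ 2 - 2 * |R - q| + 1 / lam := by field_simp; ring
            linarith
          nlinarith [mul_le_mul_of_nonneg_left (h3.trans h4) hp]
      _ ≤ lam * (∑ x : Fin 2 → St ξ nn n, (∏ a, wgt β m t θ ω (x a)) *
            (bform 0 ω.1 (x 0).1 (x 1).1 - qm ξ nn (x 0).2 (x 1).2) ^ 2) + 1 / lam := by
          rw [Finset.sum_add_distrib, ← Finset.mul_sum, ← Finset.mul_sum]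
          refine add_le_add_right (mul_le_of_le_one_right (by positivity) ?_) _
          rw [← Fintype.prod_sum, Finset.prod_const]
          exact pow_le_one₀ (Finset.sum_nonneg fun y _ => wgt_nonneg hω β m t θ y)
            (sum_wgt_le β m t θ)

lemma abs_ovl_sub_qSq_le_one :
    |stateMean ξ nn β m t θ (ovl ξ nn (n := n)) -
        stateMean ξ nn β m t θ (qSq (ξ := ξ) (nn := nn) (n := n))| ≤ 2 := by
  have h1 : |stateMean ξ nn β m t θ (ovl ξ nn (n := n))| ≤ 1 := by
    refine (abs_stateMean_le β m t θ (tame_ovl ξ nn) (integrable_const (1 : ℝ))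
      (fun _ => zero_le_one) fun g x => ?_).trans (le_of_eq (by simp))
    rw [ovl, abs_pow]
    exact pow_le_one₀ (abs_nonneg _) (abs_bform_zero_le _ _ _)
  have h2 : |stateMean ξ nn β m t θ (qSq (ξ := ξ) (nn := nn) (n := n))| ≤ 1 := by
    refine (abs_stateMean_le β m t θ (tame_qSq (ξ := ξ) (nn := nn)) (integrable_const (1 : ℝ))
      (fun _ => zero_le_one) fun g x => ?_).trans (le_of_eq (by simp))
    rw [qSq, abs_pow, abs_of_nonneg (qm_mem ξ nn _ _).1]
    exact pow_le_one₀ (qm_mem ξ nn _ _).1 (qm_mem ξ nn _ _).2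
  exact (abs_sub _ _).trans (by linarith)

/-- The integrand of the tilted Guerra bound. -/
def angleU (β : ℝ) (m : ℕ) (t A η e : ℝ) (ξ : Path) (θ : ℝ) : ℝ :=
  β ^ 2 / 2 * (Real.sin θ * Real.cos θ) * (1 - 2 * ξ.q (Fin.last ξ.r) + qq ξ) +
    t * (β ^ 2 / 2) * Real.cos θ * ((m : ℝ) * (β * Real.sin θ) ^ (m - 1) * powDiag ξ (m + 1)) +
    β ^ 2 / 2 * Real.cos θ * (A * t ^ 2 + 4 * |t| * η / (η + Real.sin θ)) + e

variable {β t θ}

/-- The bound at a fixed angle. -/
theorem angle_bound (hS : ShapeLimitStmt) (hR : RecStmt) (hβ : 0 < β) (hm : 1 ≤ m) :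
    ∃ A, 0 ≤ A ∧ ∀ η, 0 < η → ∀ ξ : Path, ξ.q 0 = 0 → ∀ t : ℝ, |t| ≤ 1 → |t| ≤ η → ∀ ε > 0,
      ∀ᶠ n : ℕ in atTop, ∀ θ ∈ Set.Icc (0 : ℝ) (Real.pi / 2), ∀ᶠ nn in cascFilter ξ.r,
        dphi ξ nn β m t θ n ≤ angleU β m t A η ε ξ θ := by
  have trig : ∀ θ ∈ Set.Icc (0 : ℝ) (Real.pi / 2),
      (0 ≤ Real.sin θ ∧ Real.sin θ ≤ 1) ∧ 0 ≤ Real.cos θ ∧ Real.cos θ ≤ 1 := fun θ hθ =>
    ⟨⟨Real.sin_nonneg_of_nonneg_of_le_pi hθ.1 (hθ.2.trans (by linarith [Real.pi_pos])),
      Real.sin_le_one θ⟩,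
      Real.cos_nonneg_of_neg_pi_div_two_le_of_le (by linarith [Real.pi_pos, hθ.1]) hθ.2,
      Real.cos_le_one θ⟩
  have hb2 : (0 : ℝ) < β ^ 2 := by positivity
  rcases Nat.eq_or_lt_of_le hm with hm1 | hm2
  · subst hm1
    refine ⟨0, le_rfl, fun η hη ξ hξ t ht htη ε hε => ?_⟩
    filter_upwards [eventually_ne_atTop 0] with n hn
    intro θ hθ
    obtain ⟨⟨hs0, hs1⟩, hc0, hc1⟩ := trig θ hθ
    set e := ε / β ^ 2 with he
    have he0 : 0 < e := by positivity
    filter_upwards [eventually_pos ξ.r,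
      Metric.tendsto_nhds.1 (tendsto_qSq β 1 t θ hS ξ n) e he0] with nn hnn hq
    rw [Real.dist_eq] at hq
    obtain hb | hb := bracket_one (ξ := ξ) (nn := nn) β t θ hn
    swap
    · obtain ⟨i, hi⟩ := hb; exact absurd (hnn i) hi
    rw [bracket] at hb
    rw [dphi_eq β 1 t θ hn hnn, hb]
    simp only [angleU, Nat.sub_self, pow_zero, Nat.cast_one, one_mul, show (1 + 1 : ℕ) = 2 from rfl,
      powDiag_two hξ, zero_mul, zero_add]
    set gap := gapSq n ξ nn β 1 t θ
    set SR := stateMean ξ nn β 1 t θ (ovl ξ nn (n := n)) with hSR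
    set SQ := stateMean ξ nn β 1 t θ (qSq (ξ := ξ) (nn := nn) (n := n)) with hSQ
    have hg0 : 0 ≤ gap := gapSq_nonneg β 1 t θ
    have key : |t| * |SR - SQ| - Real.sin θ * gap ≤ 4 * |t| * η / (η + Real.sin θ) := by
      have hden : 0 < η + Real.sin θ := by linarith
      rw [le_div_iff₀ hden]
      by_cases hsη : Real.sin θ ≤ η
      · have h1 : |t| * |SR - SQ| ≤ |t| * 2 :=
          mul_le_mul_of_nonneg_left (abs_ovl_sub_qSq_le_one β t θ) (abs_nonneg t)
        have h2 : 0 ≤ Real.sin θ * gap := mul_nonneg hs0 hg0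
        calc (|t| * |SR - SQ| - Real.sin θ * gap) * (η + Real.sin θ)
            ≤ (|t| * 2) * (η + Real.sin θ) :=
              mul_le_mul_of_nonneg_right (by linarith) hden.le
          _ ≤ 4 * |t| * η := by nlinarith [abs_nonneg t]
      · push Not at hsη
        rcases eq_or_ne t 0 with rfl | ht0
        · simp only [abs_zero, zero_mul, zero_sub, mul_zero]
          nlinarith [mul_nonneg hs0 hg0]
        have hta : 0 < |t| := abs_pos.2 ht0
        have hsp : 0 < Real.sin θ := hη.trans hsη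
        have h1 := abs_ovl_sub_qSq_le (m := 1) (ξ := ξ) (nn := nn) (n := n) β t θ
          (div_pos hsp hta)
        have h2 : |t| * |SR - SQ| - Real.sin θ * gap ≤ |t| * |t| / Real.sin θ := by
          have e : |t| * (Real.sin θ / |t| * gap + 1 / (Real.sin θ / |t|)) =
              Real.sin θ * gap + |t| * |t| / Real.sin θ := by field_simp
          linarith [mul_le_mul_of_nonneg_left h1 (abs_nonneg t)]
        calc (|t| * |SR - SQ| - Real.sin θ * gap) * (η + Real.sin θ)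
            ≤ (|t| * |t| / Real.sin θ) * (2 * Real.sin θ) :=
              mul_le_mul h2 (by linarith) hden.le (by positivity)
          _ = 2 * |t| * |t| := by field_simp
          _ ≤ 4 * |t| * η := by nlinarith [abs_nonneg t]
    have hdiff : t * (1 - SR - (1 - qq ξ)) ≤ |t| * |SR - SQ| + e := by
      have h1 : t * (1 - SR - (1 - qq ξ)) ≤ |t| * |1 - SR - (1 - qq ξ)| := by
        rw [← abs_mul]; exact le_abs_self _
      have h2 : |1 - SR - (1 - qq ξ)| ≤ |SR - SQ| + e := by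
        rw [abs_le]
        constructor <;> linarith [abs_le.1 (le_refl |SR - SQ|), abs_le.1 hq.le]
      nlinarith [abs_nonneg t]
    have hA : β ^ 2 / 2 * Real.cos θ * (Real.sin θ * (SQ - qq ξ) + t * (1 - SR - (1 - qq ξ)) -
        Real.sin θ * gap) ≤
        β ^ 2 / 2 * Real.cos θ * (4 * |t| * η / (η + Real.sin θ)) + ε := by
      have h1 : Real.sin θ * (SQ - qq ξ) ≤ e := by nlinarith [abs_le.1 hq.le]
      have h2 : β ^ 2 / 2 * Real.cos θ * (2 * e) ≤ ε := by
        rw [he]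
        calc β ^ 2 / 2 * Real.cos θ * (2 * (ε / β ^ 2)) = Real.cos θ * ε := by field_simp
          _ ≤ ε := mul_le_of_le_one_left hε.le hc1
      have h3 : 0 ≤ β ^ 2 / 2 * Real.cos θ := by positivity
      nlinarith [mul_le_mul_of_nonneg_left (show Real.sin θ * (SQ - qq ξ) +
        t * (1 - SR - (1 - qq ξ)) - Real.sin θ * gap ≤
          4 * |t| * η / (η + Real.sin θ) + 2 * e by linarith) h3]
    linarith [hA]
  · obtain ⟨A, hA, hbr⟩ := bracket_of_rec hR hβ (by omega : 2 ≤ m)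
    refine ⟨A + A ^ 2 / 4, by positivity, fun η hη ξ hξ t ht htη ε hε => ?_⟩
    set e := ε / β ^ 2 with he
    have he0 : 0 < e := by positivity
    filter_upwards [hbr ξ hξ t ht e he0, eventually_ne_atTop 0] with n hb hn
    intro θ hθ
    obtain ⟨⟨hs0, hs1⟩, hc0, hc1⟩ := trig θ hθ
    filter_upwards [hb θ hθ, eventually_pos ξ.r,
      Metric.tendsto_nhds.1 (tendsto_qSq β m t θ hS ξ n) e he0] with nn hb' hnn hq
    rw [Real.dist_eq] at hq
    rw [dphi_eq β m t θ hn hnn, ← bracket, angleU]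
    rw [abs_of_nonneg hs0] at hb'
    set gap := gapSq n ξ nn β m t θ
    set B := bracket β m t θ ξ nn n
    set Bl := (m : ℝ) * (β * Real.sin θ) ^ (m - 1) * powDiag ξ (m + 1)
    set SQ := stateMean ξ nn β m t θ (qSq (ξ := ξ) (nn := nn) (n := n))
    set r := Real.sqrt gap with hr
    have hg : r * r = gap := Real.mul_self_sqrt (gapSq_nonneg β m t θ)
    have h1 : t * (B - Bl) ≤ |t| * (A * (Real.sin θ * r + |t|) + e) := by
      calc t * (B - Bl) ≤ |t * (B - Bl)| := le_abs_self _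
        _ = |t| * |B - Bl| := abs_mul _ _
        _ ≤ _ := mul_le_mul_of_nonneg_left hb' (abs_nonneg t)
    have h2 : Real.sin θ * (|t| * A * r - r * r) ≤ A ^ 2 / 4 * t ^ 2 := by
      have h3 : |t| * A * r - r * r ≤ A ^ 2 / 4 * t ^ 2 := by
        nlinarith [sq_nonneg (|t| * A / 2 - r), sq_abs t]
      calc Real.sin θ * (|t| * A * r - r * r) ≤ Real.sin θ * (A ^ 2 / 4 * t ^ 2) :=
            mul_le_mul_of_nonneg_left h3 hs0
        _ ≤ A ^ 2 / 4 * t ^ 2 := mul_le_of_le_one_left (by positivity) hs1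
    have h4 : Real.sin θ * (SQ - qq ξ) ≤ e := by nlinarith [abs_le.1 hq.le]
    have h5 : |t| * e ≤ e := mul_le_of_le_one_left he0.le ht
    have h7 : 0 ≤ 4 * |t| * η / (η + Real.sin θ) := by positivity
    have h8 : Real.sin θ * (SQ - qq ξ) + t * (B - Bl) - Real.sin θ * gap ≤
        (A + A ^ 2 / 4) * t ^ 2 + 4 * |t| * η / (η + Real.sin θ) + 2 * e := by
      rw [← hg]
      have h9 : A * |t| ^ 2 = A * t ^ 2 := by rw [sq_abs]
      linarith
    have h6 : β ^ 2 / 2 * Real.cos θ * (2 * e) ≤ ε := by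
      rw [he]
      calc β ^ 2 / 2 * Real.cos θ * (2 * (ε / β ^ 2)) = Real.cos θ * ε := by field_simp
        _ ≤ ε := mul_le_of_le_one_left hε.le hc1
    have h3 : 0 ≤ β ^ 2 / 2 * Real.cos θ := by positivity
    linarith [mul_le_mul_of_nonneg_left h8 h3]

end Vale.Agent.P146.Div.Guerra
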