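import Vale.Agent.P146.Div.Guerra.State
import Vale.Agent.P168.Upper.Product

/-!
Gaussian integration by parts in the disorder and in the fields.
-/

noncomputable section

open MeasureTheory ProbabilityTheory Filter
open scoped BigOperators

namespace Vale.Agent.P146.Div.Guerra

open Vale.Agent.P157 (dot gam)
open Vale.Agent.P157.Parisi (Path)
open Vale.Agent.P157.Parisi.Up (leafVec Node)
open Vale.Agent.P168 (CascTree cascLaw Shape)
open Vale.Agent.P168.Cascade (Leaf leafW GoodTree ae_good leafW_pos)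

variable {n : ℕ} (ξ : Path) (nn : Fin ξ.r → ℕ) (β : ℝ) (m : ℕ) (t θ : ℝ)

/-- The squared overlap of two replicas. -/
def ovl (g : Cfg n) (x : Fin 2 → St ξ nn n) : ℝ := bform 0 g (x 0).1 (x 1).1 ^ 2

/-- The overlap against the path at the meet. -/
def ovlQ (g : Cfg n) (x : Fin 2 → St ξ nn n) : ℝ :=
  bform 0 g (x 0).1 (x 1).1 * qm ξ nn (x 0).2 (x 1).2

/-- The cross term on one replica. -/
def cr1 (g : Cfg n) (x : Fin 1 → St ξ nn n) : ℝ := cross m g (x 0).1 (x 0).1

/-- The cross term on two replicas. -/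
def cr2 (g : Cfg n) (x : Fin 2 → St ξ nn n) : ℝ := cross m g (x 0).1 (x 1).1

lemma tame_ovl (x : Fin 2 → St ξ nn n) : Tame fun g => ovl ξ nn g x :=
  Tame.pow (tame_bform' 0 _ _) 2

lemma tame_ovlQ (x : Fin 2 → St ξ nn n) : Tame fun g => ovlQ ξ nn g x :=
  Tame.mul (tame_bform' 0 _ _) (Tame.const _)

lemma tame_cr1 (x : Fin 1 → St ξ nn n) : Tame fun g => cr1 ξ nn m g x := tame_cross m _ _

lemma tame_cr2 (x : Fin 2 → St ξ nn n) : Tame fun g => cr2 ξ nn m g x := tame_cross m _ _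

variable {ξ nn}

lemma pair_algebra {X : Type*} [Fintype X] (w : X → ℝ) (hw : ∑ x, w x = 1) (a b N : ℝ)
    (R c : X → X → ℝ) (D : X → ℝ) (hR : ∀ x, R x x = 1) :
    (∑ x, w x * (a * ((N * R x x ^ 2 - 1) / 2) + b * (N * c x x - D x / (2 * N)))) -
        ∑ x, ∑ y, w x * w y * (a * ((N * R x y ^ 2 - 1) / 2) + b * (N * c x y - D y / (2 * N))) =
      a * N / 2 * (1 - ∑ x, ∑ y, w x * w y * R x y ^ 2) +
        b * N * ((∑ x, w x * c x x) - ∑ x, ∑ y, w x * w y * c x y) := by
  have h2 : ∀ f : X → ℝ, ∑ x, ∑ y, w x * w y * f y = ∑ y, w y * f y := fun f => by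
    simp only [mul_assoc, ← Finset.mul_sum, ← Finset.sum_mul, hw, one_mul]
  have e1 : ∀ x, w x * (a * ((N * R x x ^ 2 - 1) / 2) + b * (N * c x x - D x / (2 * N))) =
      (a * (N - 1) / 2) * w x + (b * N) * (w x * c x x) - (b / (2 * N)) * (w x * D x) := fun x => by
    rw [hR]; ring
  have e2 : ∀ x y, w x * w y * (a * ((N * R x y ^ 2 - 1) / 2) + b * (N * c x y - D y / (2 * N))) =
      (a * N / 2) * (w x * w y * R x y ^ 2) - (a / 2) * (w x * w y) +
        (b * N) * (w x * w y * c x y) - (b / (2 * N)) * (w x * w y * D y) := fun x y => by ring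
  simp only [e1, e2, Finset.sum_add_distrib, Finset.sum_sub_distrib, ← Finset.mul_sum, h2, hw]
  simp only [← Finset.sum_mul, hw]
  ring

lemma sum_disorder_ibp (hn : n ≠ 0) (hnn : ∀ i, 0 < nn i) (z : CascTree Unit ξ.r nn × FieldVar ξ.r n nn)
    (hz : GoodTree ξ.r nn z.1) :
    ∫ g, ∑ x : St ξ nn n, wgt β m t θ (g, z) x * energy g x.1 ∂gauss (Edge n) =
      ∫ g, β * Real.sin θ * (n : ℝ) / 2 * (1 - avg β m t θ (ovl ξ nn) (g, z)) +
        t * (β / 2) * (n : ℝ) *
          (avg β m t θ (cr1 ξ nn m) (g, z) - avg β m t θ (cr2 ξ nn m) (g, z)) ∂gauss (Edge n) := by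
  have := nonempty_st (ξ := ξ) (n := n) hnn
  set H : St ξ nn n → Cfg n → ℝ := fun x g => interpH β m t θ g x.1 +
    (β * Real.cos θ * fieldE ξ nn z.2 x.1 x.2 + Real.log (leafW ξ.r ξ.m nn z.1 x.2)) with hH
  have hHt : ∀ x, Tame (H x) := fun x => Tame.add (tame_interpH β m t θ x.1) (Tame.const _)
  have hw : ∀ g x, wgt β m t θ (g, z) x = sm H x g := by
    intro g x
    have e : ∀ y : St ξ nn n, Real.exp (H y g) =
        leafW ξ.r ξ.m nn z.1 y.2 * Real.exp (expo β m t θ (g, z) y) := fun y => by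
      rw [hH]
      simp only [expo, ← add_assoc]
      rw [Real.exp_add, Real.exp_log (leafW_pos _ _ _ _ _ hz), mul_comm]
    simp only [wgt_eq_div, sm, e]
  have hpd : ∀ x y g, ∑ e, dEnergy (Prod.fst (x : St ξ nn n)) e * pd e (H y) g =
      β * Real.sin θ * (((n : ℝ) * bform 0 g x.1 y.1 ^ 2 - 1) / 2) +
        t * (β / 2) * ((n : ℝ) * cross m g x.1 y.1 - diagU m g y.1 / (2 * n)) := by
    intro x y g
    rw [← dirE_interpH hn]
    refine Finset.sum_congr rfl fun e _ => ?_
    congr 1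
    simp only [hH]
    rw [pd_add _ (tame_interpH β m t θ y.1) (Tame.const _), pd_const]
    simp
  have hl : ∀ g, ∑ x : St ξ nn n, wgt β m t θ (g, z) x * energy g x.1 =
      ∑ x : St ξ nn n, sm H x g * (∑ e, dEnergy x.1 e * g e) := fun g =>
    Finset.sum_congr rfl fun x _ => by rw [hw, energy_eq_dot]
  simp only [hl]
  rw [sm_ibp hHt fun x : St ξ nn n => dEnergy x.1]
  refine integral_congr_ae (.of_forall fun g => ?_)
  simp only [hpd]
  have e1 : avg β m t θ (ovl ξ nn) (g, z) = ∑ x : St ξ nn n, ∑ y : St ξ nn n,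
      sm H x g * sm H y g * bform 0 g x.1 y.1 ^ 2 := by
    simp only [← hw]
    exact avg_two β m t θ (fun g x y => bform 0 g x.1 y.1 ^ 2) (g, z)
  have e2 : avg β m t θ (cr1 ξ nn m) (g, z) =
      ∑ x : St ξ nn n, sm H x g * cross m g x.1 x.1 := by
    simp only [← hw]
    exact avg_one β m t θ (fun g x => cross m g x.1 x.1) (g, z)
  have e3 : avg β m t θ (cr2 ξ nn m) (g, z) = ∑ x : St ξ nn n, ∑ y : St ξ nn n,
      sm H x g * sm H y g * cross m g x.1 y.1 := by
    simp only [← hw]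
    exact avg_two β m t θ (fun g x y => cross m g x.1 y.1) (g, z)
  rw [e1, e2, e3]
  exact pair_algebra (fun x => sm H x g) (sum_sm H g) _ _ _ (fun x y => bform 0 g x.1 y.1)
    (fun x y => cross m g x.1 y.1) (fun y => diagU m g y.1) (fun x => bform_zero_self hn g x.1)

lemma ae_goodZ : ∀ᵐ z ∂augLaw ξ n nn, GoodTree ξ.r nn z.1 :=
  Measure.quasiMeasurePreserving_fst.ae (ae_good (Measure.dirac ()) ξ.r nn)

/-- Integration by parts in the disorder. -/
theorem mean_energy (hn : n ≠ 0) (hnn : ∀ i, 0 < nn i) :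
    ∫ ω, ∑ x : St ξ nn n, wgt β m t θ ω x * energy ω.1 x.1 ∂law ξ nn n =
      β * Real.sin θ * (n : ℝ) / 2 * (1 - stateMean ξ nn β m t θ (ovl ξ nn (n := n))) +
        t * (β / 2) * (n : ℝ) * (stateMean ξ nn β m t θ (cr1 ξ nn m (n := n)) -
          stateMean ξ nn β m t θ (cr2 ξ nn m (n := n))) := by
  have i1 := integrable_avg (n := n) β m t θ (tame_ovl ξ nn)
  have i2 := integrable_avg (n := n) β m t θ (tame_cr1 ξ nn m)
  have i3 := integrable_avg (n := n) β m t θ (tame_cr2 ξ nn m)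
  have iA : Integrable (fun ω : Rnd ξ nn n =>
      β * Real.sin θ * (n : ℝ) / 2 * (1 - avg β m t θ (ovl ξ nn) ω)) (law ξ nn n) :=
    ((integrable_const _).sub i1).const_mul _
  have iB : Integrable (fun ω : Rnd ξ nn n => t * (β / 2) * (n : ℝ) *
      (avg β m t θ (cr1 ξ nn m) ω - avg β m t θ (cr2 ξ nn m) ω)) (law ξ nn n) :=
    (i2.sub i3).const_mul _
  have iL : Integrable (fun ω : Rnd ξ nn n => ∑ x : St ξ nn n, wgt β m t θ ω x * energy ω.1 x.1)
      (law ξ nn n) := by
    simp only [← avg_one β m t θ (fun g x => energy g x.1)]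
    exact integrable_avg β m t θ fun x => tame_energy' (x 0).1
  have hR : ∫ ω, (β * Real.sin θ * (n : ℝ) / 2 * (1 - avg β m t θ (ovl ξ nn) ω) +
      t * (β / 2) * (n : ℝ) * (avg β m t θ (cr1 ξ nn m) ω - avg β m t θ (cr2 ξ nn m) ω))
      ∂law ξ nn n = β * Real.sin θ * (n : ℝ) / 2 * (1 - stateMean ξ nn β m t θ (ovl ξ nn (n := n))) +
        t * (β / 2) * (n : ℝ) * (stateMean ξ nn β m t θ (cr1 ξ nn m (n := n)) -
          stateMean ξ nn β m t θ (cr2 ξ nn m (n := n))) := by
    rw [integral_add iA iB, integral_const_mul, integral_const_mul,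
      integral_sub (integrable_const _) i1, integral_sub i2 i3,
      stateMean_eq β m t θ (tame_ovl ξ nn), stateMean_eq β m t θ (tame_cr1 ξ nn m),
      stateMean_eq β m t θ (tame_cr2 ξ nn m)]
    simp
  rw [← hR]
  unfold law at iA iB iL ⊢
  rw [integral_prod_symm _ iL, integral_prod_symm _ (iA.fun_add iB)]
  exact integral_congr_ae (ae_goodZ.mono fun z hz => sum_disorder_ibp β m t θ hn hnn z hz)

lemma sum_field_ibp (hn : n ≠ 0) (hnn : ∀ i, 0 < nn i) (g : Cfg n) (T : CascTree Unit ξ.r nn)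
    (hT : GoodTree ξ.r nn T) :
    ∫ γ, ∑ x : St ξ nn n, wgt β m t θ (g, T, γ) x * fieldE ξ nn γ x.1 x.2 ∂fieldLaw ξ.r n nn =
      ∫ γ, β * Real.cos θ * (n : ℝ) *
        (ξ.q (Fin.last ξ.r) - avg β m t θ (ovlQ ξ nn) (g, T, γ)) ∂fieldLaw ξ.r n nn := by
  classical
  have := nonempty_st (ξ := ξ) (n := n) hnn
  have hn' : (n : ℝ) ≠ 0 := Nat.cast_ne_zero.2 hn
  set c := β * Real.cos θ with hc
  set a : St ξ nn n → Fin n × Option (Node ξ.r nn) → ℝ := fun x p =>
    spin (x.1 p.1) * leafVec nn ξ.q x.2 p.2 with ha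
  set H : St ξ nn n → (Fin n × Option (Node ξ.r nn) → ℝ) → ℝ := fun x y =>
    (interpH β m t θ g x.1 + Real.log (leafW ξ.r ξ.m nn T x.2)) + c * ∑ p, a x p * y p with hH
  have hlin : ∀ x, Tame fun y : Fin n × Option (Node ξ.r nn) → ℝ => ∑ p, a x p * y p := fun x =>
    Tame.sum _ fun p _ => Tame.const_mul _ (Tame.coord p)
  have hHt : ∀ x, Tame (H x) := fun x => Tame.add (Tame.const _) (Tame.const_mul _ (hlin x))
  let cur : (Fin n × Option (Node ξ.r nn) → ℝ) → FieldVar ξ.r n nn := fun y i j => y (i, j)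
  have hmp : MeasurePreserving cur (gauss _) (fieldLaw ξ.r n nn) :=
    Vale.Agent.P168.Upper.mp_curry (gaussianReal 0 1)
  have hf : ∀ y x, fieldE ξ nn (cur y) (x : St ξ nn n).1 x.2 = ∑ p, a x p * y p := fun y x =>
    fieldE_eq_dot _ x
  have hw : ∀ y x, wgt β m t θ (g, T, cur y) x = sm H x y := by
    intro y x
    have e : ∀ x : St ξ nn n, Real.exp (H x y) =
        leafW ξ.r ξ.m nn T x.2 * Real.exp (expo β m t θ (g, T, cur y) x) := fun x => by
      simp only [hH, expo, hf, ← hc]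
      rw [show ∀ A L B : ℝ, A + L + B = L + (A + B) from fun _ _ _ => by ring, Real.exp_add,
        Real.exp_log (leafW_pos _ _ _ _ _ hT)]
    simp only [wgt_eq_div, sm, e]
  have hpd : ∀ x y e, pd e (H y) x = c * a y e := by
    intro x y e
    simp only [hH]
    rw [pd_add _ (Tame.const _) (Tame.const_mul _ (hlin y)), pd_const, pd_const_mul _ _ (hlin y),
      pd_sum _ _ fun p _ => Tame.const_mul _ (Tame.coord p)]
    simp only [pd_const_mul _ _ (Tame.coord _), pd_coord]
    simp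
  have hcov : ∀ x y : St ξ nn n, ∑ e, a x e * (c * a y e) =
      c * (n : ℝ) * (bform 0 g x.1 y.1 * qm ξ nn x.2 y.2) := by
    intro x y
    have e : ∑ e, a x e * (c * a y e) = c * ((∑ i, spin (x.1 i) * spin (y.1 i)) *
        dot (leafVec nn ξ.q x.2) (leafVec nn ξ.q y.2)) := by
      rw [dot, Finset.sum_mul_sum, Fintype.sum_prod_type, Finset.mul_sum]
      refine Finset.sum_congr rfl fun i _ => ?_
      rw [Finset.mul_sum]
      exact Finset.sum_congr rfl fun j _ => by simp only [ha]; ring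
    rw [e, dot_leafVec_leafVec, bform_zero]
    field_simp
  have hm1 : Measurable fun γ : FieldVar ξ.r n nn =>
      ∑ x : St ξ nn n, wgt β m t θ (g, T, γ) x * fieldE ξ nn γ x.1 x.2 :=
    Finset.measurable_sum _ fun x _ => (Measurable.comp (g := fun ω => wgt β m t θ ω x)
      (f := fun γ : FieldVar ξ.r n nn => ((g, T, γ) : Rnd ξ nn n)) (measurable_wgt' β m t θ x)
      (measurable_const.prodMk (measurable_const.prodMk measurable_id))).mul
        (continuous_fieldE x.1 x.2).measurable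
  have hm2 : Measurable fun γ : FieldVar ξ.r n nn =>
      β * Real.cos θ * (n : ℝ) * (ξ.q (Fin.last ξ.r) - avg β m t θ (ovlQ ξ nn) (g, T, γ)) :=
    (measurable_const.sub (Measurable.comp (g := avg β m t θ (ovlQ ξ nn))
      (f := fun γ : FieldVar ξ.r n nn => ((g, T, γ) : Rnd ξ nn n))
      (measurable_avg β m t θ (tame_ovlQ ξ nn))
      (measurable_const.prodMk (measurable_const.prodMk measurable_id)))).const_mul _
  rw [← Vale.Agent.P168.Upper.integral_mp hmp hm1, ← Vale.Agent.P168.Upper.integral_mp hmp hm2]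
  simp only [hw, hf]
  rw [sm_ibp hHt a]
  refine integral_congr_ae (.of_forall fun y => ?_)
  simp only [hpd, hcov, bform_zero_self hn, qm_self]
  have e1 : avg β m t θ (ovlQ ξ nn) (g, T, cur y) = ∑ u : St ξ nn n, ∑ v : St ξ nn n,
      sm H u y * sm H v y * (bform 0 g u.1 v.1 * qm ξ nn u.2 v.2) := by
    simp only [← hw]
    exact avg_two β m t θ (fun g u v => bform 0 g u.1 v.1 * qm ξ nn u.2 v.2) (g, T, cur y)
  rw [e1]
  simp only [mul_left_comm _ (c * (n : ℝ)), ← Finset.mul_sum, ← Finset.sum_mul, sum_sm, one_mul]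
  rw [hc]; ring

/-- Integration by parts in the fields. -/
theorem mean_fieldE (hn : n ≠ 0) (hnn : ∀ i, 0 < nn i) :
    ∫ ω, ∑ x : St ξ nn n, wgt β m t θ ω x * fieldE ξ nn ω.2.2 x.1 x.2 ∂law ξ nn n =
      β * Real.cos θ * (n : ℝ) *
        (ξ.q (Fin.last ξ.r) - stateMean ξ nn β m t θ (ovlQ ξ nn (n := n))) := by
  have i1 := integrable_avg (n := n) β m t θ (tame_ovlQ ξ nn)
  have iR : Integrable (fun ω : Rnd ξ nn n => β * Real.cos θ * (n : ℝ) *
      (ξ.q (Fin.last ξ.r) - avg β m t θ (ovlQ ξ nn) ω)) (law ξ nn n) :=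
    ((integrable_const _).sub i1).const_mul _
  have iL : Integrable (fun ω : Rnd ξ nn n =>
      ∑ x : St ξ nn n, wgt β m t θ ω x * fieldE ξ nn ω.2.2 x.1 x.2) (law ξ nn n) := by
    refine (integrable_finsetSum Finset.univ fun x _ => (integrable_fieldE x).abs).mono'
      (Finset.measurable_sum _ fun x _ => (measurable_wgt' β m t θ x).mul
        ((continuous_fieldE x.1 x.2).measurable.comp (measurable_snd.comp measurable_snd))).aestronglyMeasurable
      (ae_goodW.mono fun ω hω => ?_)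
    rw [Real.norm_eq_abs]
    refine (Finset.abs_sum_le_sum_abs _ _).trans (Finset.sum_le_sum fun x _ => ?_)
    rw [abs_mul, abs_of_nonneg (wgt_nonneg hω β m t θ x)]
    exact mul_le_of_le_one_left (abs_nonneg _)
      ((Finset.single_le_sum (fun y _ => wgt_nonneg hω β m t θ y) (Finset.mem_univ x)).trans
        (sum_wgt_le β m t θ))
  have hR : ∫ ω, β * Real.cos θ * (n : ℝ) *
      (ξ.q (Fin.last ξ.r) - avg β m t θ (ovlQ ξ nn) ω) ∂law ξ nn n = β * Real.cos θ * (n : ℝ) *
        (ξ.q (Fin.last ξ.r) - stateMean ξ nn β m t θ (ovlQ ξ nn (n := n))) := by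
    rw [integral_const_mul, integral_sub (integrable_const _) i1,
      stateMean_eq β m t θ (tame_ovlQ ξ nn)]
    simp
  rw [← hR]
  unfold law at iL iR ⊢
  rw [integral_prod _ iL, integral_prod _ iR]
  refine integral_congr_ae ?_
  filter_upwards [iL.prod_right_ae, iR.prod_right_ae] with g hgL hgR
  unfold augLaw at hgL hgR ⊢
  rw [integral_prod _ hgL, integral_prod _ hgR]
  exact integral_congr_ae ((ae_good (Measure.dirac ()) ξ.r nn).mono fun T hT =>
    sum_field_ibp β m t θ hn hnn g T hT)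

end Vale.Agent.P146.Div.Guerra
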