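import Vale.Agent.P146.Div.Defs

/-!
The vectors of two leaves have inner product equal to the path at their meet.
-/

noncomputable section

open scoped BigOperators

namespace Vale.Agent.P146.Div.Guerra

open Vale.Agent.P157 (dot)
open Vale.Agent.P157.Parisi (Path pathField)
open Vale.Agent.P157.Parisi.Up
open Vale.Agent.P168.Cascade (Leaf leafMeet)

lemma leafMeet_le : ∀ (r : ℕ) (n : Fin r → ℕ) (f g : Leaf r n), leafMeet r n f g ≤ r
  | 0, _, _, _ => le_rfl
  | r + 1, n, f, g => by
    simp only [leafMeet]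
    split_ifs
    · exact Nat.succ_le_succ (leafMeet_le r _ _ _)
    · exact Nat.zero_le _

lemma leafMeet_self : ∀ (r : ℕ) (n : Fin r → ℕ) (f : Leaf r n), leafMeet r n f f = r
  | 0, _, _ => rfl
  | r + 1, n, f => by
    simp [leafMeet]
    exact leafMeet_self r _ _

lemma leafMeet_comm : ∀ (r : ℕ) (n : Fin r → ℕ) (f g : Leaf r n),
    leafMeet r n f g = leafMeet r n g f
  | 0, _, _, _ => rfl
  | r + 1, n, f, g => by
    simp only [leafMeet, eq_comm (a := f 0) (b := g 0),
      show leafMeet r (Fin.tail n) (Fin.tail f) (Fin.tail g) =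
        leafMeet r (Fin.tail n) (Fin.tail g) (Fin.tail f) from leafMeet_comm r _ _ _]

lemma node_eq_iff : ∀ {r : ℕ} (n : Fin r → ℕ) (l l' : Leaf r n) (p p' : Fin r),
    node n l p = node n l' p' ↔ p = p' ∧ p.val < leafMeet r n l l'
  | 0, _, _, _, p, _ => p.elim0
  | r + 1, n, l, l', p, p' => by
    cases p using Fin.cases with
    | zero =>
      cases p' using Fin.cases with
      | zero =>
        by_cases h : l 0 = l' 0
        · simp [leafMeet, node_zero, h]
          try rfl
        · simp [leafMeet, node_zero, h]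
          try exact fun e => h (congrArg Prod.fst e)
      | succ j =>
        simp only [node_zero, node_succ]
        exact ⟨fun h => absurd (congrArg Prod.snd h) (Option.some_ne_none _).symm,
          fun h => absurd h.1.symm (Fin.succ_ne_zero j)⟩
    | succ i =>
      cases p' using Fin.cases with
      | zero =>
        simp only [node_zero, node_succ]
        exact ⟨fun h => absurd (congrArg Prod.snd h) (Option.some_ne_none _),
          fun h => absurd h.1 (Fin.succ_ne_zero i)⟩
      | succ j =>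
        simp only [node_succ, leafMeet, Fin.succ_inj, Fin.val_succ]
        by_cases h : l 0 = l' 0
        · rw [if_pos h, Nat.add_lt_add_iff_right]
          refine Iff.trans ?_ (node_eq_iff (Fin.tail n) (Fin.tail l) (Fin.tail l') i j)
          refine ⟨fun e => Option.some.inj (congrArg Prod.snd e), fun e => ?_⟩
          exact Prod.ext h (congrArg some e)
        · rw [if_neg h]
          exact ⟨fun e => absurd (congrArg Prod.fst e) h, fun e => absurd e.2 (Nat.not_lt_zero _)⟩

/-- The path at the meet of two leaves. -/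
def qm (ξ : Path) (nn : Fin ξ.r → ℕ) (l l' : Leaf ξ.r nn) : ℝ :=
  ξ.q (Fin.ofNat (ξ.r + 1) (leafMeet ξ.r nn l l'))

lemma qm_self (ξ : Path) (nn : Fin ξ.r → ℕ) (l : Leaf ξ.r nn) :
    qm ξ nn l l = ξ.q (Fin.last ξ.r) := by
  rw [qm, leafMeet_self]
  congr 1
  exact Fin.ext (Nat.mod_eq_of_lt (Nat.lt_succ_self _))

lemma qm_mem (ξ : Path) (nn : Fin ξ.r → ℕ) (l l' : Leaf ξ.r nn) :
    qm ξ nn l l' ∈ Set.Icc (0 : ℝ) 1 :=
  ⟨ξ.isPath.nonneg.trans (ξ.isPath.mono (Fin.zero_le _)),
    (ξ.isPath.mono (Fin.le_last _)).trans ξ.isPath.le_one⟩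

lemma leafShape_eq {r k : ℕ} (nn : Fin r → ℕ) (L : Fin k → Leaf r nn) (a b : Fin k) :
    leafShape nn L a b = Fin.ofNat (r + 1) (leafMeet r nn (L a) (L b)) := rfl

/-- The inner product of two leaf vectors. -/
theorem dot_leafVec_leafVec (ξ : Path) (nn : Fin ξ.r → ℕ) (l l' : Leaf ξ.r nn) :
    dot (leafVec nn ξ.q l) (leafVec nn ξ.q l') = qm ξ nn l l' := by
  classical
  have hq := ξ.isPath
  rw [dot_leafVec, pathField, qm, ← sum_inc_lt ξ.q (Fin.ofNat (ξ.r + 1) _)]
  congr 1
  · exact Real.mul_self_sqrt hq.nonneg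
  · refine Finset.sum_congr rfl fun p _ => ?_
    have hv : ((Fin.ofNat (ξ.r + 1) (leafMeet ξ.r nn l l') : Fin (ξ.r + 1)) : ℕ) =
        leafMeet ξ.r nn l l' := Nat.mod_eq_of_lt (Nat.lt_succ_of_le (leafMeet_le _ _ _ _))
    have hs : ∀ p', node nn l p' = node nn l' p ↔ p' = p ∧ p'.val < leafMeet ξ.r nn l l' :=
      fun p' => node_eq_iff nn l l' p' p
    simp only [leafVec, hs, hv, ite_and, Finset.sum_ite_eq', Finset.mem_univ, if_true]
    split_ifs
    · exact Real.mul_self_sqrt (inc_nonneg hq.mono p)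
    · exact mul_zero _

end Vale.Agent.P146.Div.Guerra
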