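import Vale.Agent.P146.Div.Defs
import Vale.Agent.P146.Gibbs
import Vale.Agent.P146.Cheb
import Vale.Agent.P146.DabRules

/-!
The derivatives of the tilted log-weights along the energy of a configuration.
-/

noncomputable section

open MeasureTheory ProbabilityTheory
open scoped BigOperators

namespace Vale.Agent.P146.Div.Guerra

variable {n : ℕ}

lemma spin_mul_self (b : Bool) : spin b * spin b = 1 := by cases b <;> norm_num [spin]

lemma abs_spin (b : Bool) : |spin b| = 1 := by cases b <;> norm_num [spin]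

lemma bform_zero (g : Cfg n) (s u : Fin n → Bool) :
    bform 0 g s u = (∑ a, spin (s a) * spin (u a)) / n := by
  simp [bform, uEnt_zero]

lemma bform_symm (m : ℕ) (g : Cfg n) (s u : Fin n → Bool) : bform m g s u = bform m g u s := by
  unfold bform
  congr 1
  rw [Finset.sum_comm]
  exact Finset.sum_congr rfl fun a _ => Finset.sum_congr rfl fun b _ => by
    rw [uEnt_symm m b a]; ring

lemma bform_zero_self (hn : n ≠ 0) (g : Cfg n) (s : Fin n → Bool) : bform 0 g s s = 1 := by
  have : (n : ℝ) ≠ 0 := Nat.cast_ne_zero.2 hn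
  simp [bform_zero, spin_mul_self, this]

lemma abs_bform_zero_le (g : Cfg n) (s u : Fin n → Bool) : |bform 0 g s u| ≤ 1 := by
  rw [bform_zero, abs_div, Nat.abs_cast]
  refine div_le_one_of_le₀ ((Finset.abs_sum_le_sum_abs _ _).trans (le_of_eq ?_)) (Nat.cast_nonneg n)
  simp [abs_mul, abs_spin]

lemma energy_eq_dot (g : Cfg n) (s : Fin n → Bool) : energy g s = ∑ e, dEnergy s e * g e := by
  simp only [dEnergy, Finset.sum_mul, ite_mul, zero_mul]
  rw [Finset.sum_comm, energy_eq]
  simp [mul_comm]

lemma pd_energy (u : Fin n → Bool) (e : Edge n) :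
    pd e (fun g : Cfg n => energy g u) = fun _ => dEnergy u e := by
  funext g
  show fderiv ℝ (fun g : Cfg n => energy g u) g (Pi.single e 1) = _
  rw [(hasFDerivAt_energy g u).fderiv]
  exact proj_slope_single u e

/-- The derivative along the energy of a configuration. -/
def dirE (s : Fin n → Bool) (f : Cfg n → ℝ) (g : Cfg n) : ℝ := ∑ e, dEnergy s e * pd e f g

lemma sum_dEnergy_mul (s : Fin n → Bool) (F : Edge n → ℝ) :
    ∑ e, dEnergy s e * F e = ∑ p : Pair n, slope s p * F (pairEdge p) := by
  simp only [dEnergy, Finset.sum_mul, ite_mul, zero_mul]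
  rw [Finset.sum_comm]
  simp

/-- Symmetric sums over pairs. -/
lemma two_mul_sum_pair (F : Fin n → Fin n → ℝ) (hF : ∀ a b, F a b = F b a) :
    2 * ∑ p : Pair n, F p.1.1 p.1.2 = (∑ a, ∑ b, F a b) - ∑ a, F a a := by
  have h1 : ∀ a b, F a b = (if a < b then F a b else 0) + (if b < a then F b a else 0) +
      if a = b then F a a else 0 := by
    intro a b
    rcases lt_trichotomy a b with h | h | h
    · simp [h, h.ne, not_lt.2 h.le]
    · subst h; simp
    · simp [h, h.ne', not_lt.2 h.le, hF a b]
  have h3 : ∑ a, ∑ b, (if a < b then F a b else 0) = ∑ p : Pair n, F p.1.1 p.1.2 := by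
    rw [← Fintype.sum_prod_type' (f := fun a b => if a < b then F a b else 0), ← Finset.sum_filter]
    exact Finset.sum_subtype _ (by simp) fun p : Fin n × Fin n => F p.1 p.2
  have h4 : ∑ a, ∑ b, (if b < a then F b a else 0) = ∑ p : Pair n, F p.1.1 p.1.2 :=
    Finset.sum_comm.trans h3
  conv_rhs => enter [1, 2, a, 2, b]; rw [h1 a b]
  simp only [Finset.sum_add_distrib, h3, h4, Finset.sum_ite_eq, Finset.mem_univ, if_true]
  ring

/-- The overlap is the covariance of the energies. -/
lemma dirE_energy (hn : n ≠ 0) (g : Cfg n) (s u : Fin n → Bool) :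
    dirE s (fun g : Cfg n => energy g u) g = ((n : ℝ) * bform 0 g s u ^ 2 - 1) / 2 := by
  have hn' : (0 : ℝ) < n := Nat.cast_pos.2 (Nat.pos_of_ne_zero hn)
  have hsq := Real.mul_self_sqrt hn'.le
  simp only [dirE, pd_energy, sum_dEnergy_mul]
  have hd : ∀ p : Pair n, dEnergy u (pairEdge p) = slope u p := fun p => by
    rw [dEnergy, Finset.sum_eq_single p]
    · exact if_pos rfl
    · exact fun q _ hq => if_neg fun h => hq (pairEdge_injective h)
    · simp
  set c : Fin n → ℝ := fun a => spin (s a) * spin (u a) with hc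
  have hs : ∀ p : Pair n, slope s p * dEnergy u (pairEdge p) = c p.1.1 * c p.1.2 / n := fun p => by
    rw [hd]
    simp only [slope, hc, div_mul_div_comm, hsq]
    ring
  have h2 := two_mul_sum_pair (fun a b => c a * c b) fun a b => mul_comm _ _
  have h3 : ∑ a, c a * c a = n := by
    have : ∀ a, c a * c a = 1 := fun a => by
      have h1 := spin_mul_self (s a)
      have h2 := spin_mul_self (u a)
      simp only [hc]
      linear_combination (spin (u a) * spin (u a)) * h1 + h2
    simp [this]
  rw [Finset.sum_congr rfl fun p _ => hs p, ← Finset.sum_div, bform_zero]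
  simp only [← Finset.mul_sum, ← Finset.sum_mul, h3] at h2
  change _ = ((n : ℝ) * ((∑ a, c a) / n) ^ 2 - 1) / 2
  field_simp
  linarith

/-- The quadratic form of the Chebyshev matrix at a configuration. -/
def quadU (m : ℕ) (u : Fin n → Bool) (g : Cfg n) : ℝ :=
  ∑ a, ∑ b, (spin (u a) * spin (u b)) * uEnt m a b g

lemma quadU_eq (hn : n ≠ 0) (m : ℕ) (u : Fin n → Bool) (g : Cfg n) :
    quadU m u g = (n : ℝ) * bform m g u u := by
  have : (n : ℝ) ≠ 0 := Nat.cast_ne_zero.2 hn
  rw [bform, mul_div_cancel₀ _ this]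
  exact Finset.sum_congr rfl fun a _ => Finset.sum_congr rfl fun b _ => by ring

lemma tame_quadU (m : ℕ) (u : Fin n → Bool) : Tame (quadU m u) :=
  Tame.sum _ fun a _ => Tame.sum _ fun b _ => Tame.const_mul _ (Tame.uEnt m a b)

/-- A column of the Chebyshev matrix against a configuration. -/
def colU (i : ℕ) (u : Fin n → Bool) (c : Fin n) (g : Cfg n) : ℝ :=
  ∑ a, spin (u a) * uEnt i a c g

lemma Dab_quadU (m : ℕ) (u : Fin n → Bool) (c d : Fin n) (g : Cfg n) :
    Dab (c, d) (quadU m u) g = ∑ i ∈ Finset.range m,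
      (colU i u c g * colU (m - 1 - i) u d g + colU i u d g * colU (m - 1 - i) u c g) := by
  have hu : ∀ a b, Tame (fun g : Cfg n => spin (u a) * spin (u b) * uEnt m a b g) := fun a b =>
    Tame.const_mul _ (Tame.uEnt m a b)
  have h : Dab (c, d) (quadU m u) g =
      ∑ a, ∑ b, spin (u a) * spin (u b) * Dab (c, d) (uEnt m a b) g := by
    unfold Dab quadU
    rw [pd_sum _ _ fun a _ => Tame.sum _ fun b _ => hu a b, Finset.mul_sum]
    refine Finset.sum_congr rfl fun a _ => ?_
    rw [pd_sum _ _ fun b _ => hu a b, Finset.mul_sum]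
    refine Finset.sum_congr rfl fun b _ => ?_
    rw [pd_const_mul _ _ (Tame.uEnt m a b)]
    ring
  rw [h]
  simp only [Dab_uEnt, Finset.mul_sum]
  simp_rw [Finset.sum_comm (t := Finset.range m)]
  refine Finset.sum_congr rfl fun i _ => ?_
  simp only [colU, Finset.sum_mul_sum, ← Finset.sum_add_distrib]
  refine Finset.sum_congr rfl fun a _ => Finset.sum_congr rfl fun b _ => ?_
  rw [uEnt_symm (m - 1 - i) d b, uEnt_symm (m - 1 - i) c b]
  ring

lemma sum_spin_colU (hn : n ≠ 0) (i : ℕ) (g : Cfg n) (s u : Fin n → Bool) :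
    ∑ c, spin (s c) * colU i u c g = (n : ℝ) * bform i g s u := by
  have : (n : ℝ) ≠ 0 := Nat.cast_ne_zero.2 hn
  rw [bform, mul_div_cancel₀ _ this]
  simp only [colU, Finset.mul_sum]
  refine Finset.sum_congr rfl fun c _ => Finset.sum_congr rfl fun a _ => ?_
  rw [uEnt_symm i a c]; ring

/-- The cross term of the tilt. -/
def cross (m : ℕ) (g : Cfg n) (s u : Fin n → Bool) : ℝ :=
  ∑ i ∈ Finset.range m, bform i g s u * bform (m - 1 - i) g u s

/-- The diagonal part of the derivative of the tilt. -/
def diagU (m : ℕ) (g : Cfg n) (u : Fin n → Bool) : ℝ :=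
  ∑ c, Dab (c, c) (quadU m u) g

lemma dirE_quadU (hn : n ≠ 0) (m : ℕ) (g : Cfg n) (s u : Fin n → Bool) :
    dirE s (quadU m u) g = (n : ℝ) * cross m g s u - diagU m g u / (2 * n) := by
  have hn' : (0 : ℝ) < n := Nat.cast_pos.2 (Nat.pos_of_ne_zero hn)
  have hsq := Real.mul_self_sqrt hn'.le
  set F : Fin n → Fin n → ℝ := fun c d =>
    spin (s c) * spin (s d) * Dab (c, d) (quadU m u) g with hF
  have h1 : ∀ p : Pair n, slope s p * pd (pairEdge p) (quadU m u) g = F p.1.1 p.1.2 / n := fun p => by
    simp only [hF, Dab, dfac, if_neg p.2.ne, one_mul, slope, pairEdge]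
    field_simp
    rw [pow_two, hsq]
    try ring
  have h2 := two_mul_sum_pair F fun a b => by
    simp only [hF]; rw [Dab_swap]; ring
  have h3 : ∑ a, F a a = diagU m g u := by
    simp only [hF, spin_mul_self, one_mul, diagU]
  have h4 : ∑ c, ∑ d, F c d = 2 * ((n : ℝ) ^ 2 * cross m g s u) := by
    simp only [hF, Dab_quadU, cross, Finset.mul_sum]
    simp_rw [Finset.sum_comm (t := Finset.range m)]
    refine Finset.sum_congr rfl fun i _ => ?_
    have e1 := sum_spin_colU hn i g s u
    have e2 := sum_spin_colU hn (m - 1 - i) g s u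
    rw [bform_symm (m - 1 - i) g u s]
    calc ∑ c, ∑ d, spin (s c) * spin (s d) *
          (colU i u c g * colU (m - 1 - i) u d g + colU i u d g * colU (m - 1 - i) u c g)
        = (∑ c, spin (s c) * colU i u c g) * (∑ d, spin (s d) * colU (m - 1 - i) u d g) +
            (∑ c, spin (s c) * colU (m - 1 - i) u c g) * (∑ d, spin (s d) * colU i u d g) := by
          simp only [Finset.sum_mul_sum, ← Finset.sum_add_distrib]
          exact Finset.sum_congr rfl fun c _ => Finset.sum_congr rfl fun d _ => by ring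
      _ = _ := by rw [e1, e2]; ring
  rw [dirE, sum_dEnergy_mul, Finset.sum_congr rfl fun p _ => h1 p, ← Finset.sum_div]
  rw [h3, h4] at h2
  field_simp
  linarith

lemma tame_energy' (u : Fin n → Bool) : Tame (fun g : Cfg n => energy g u) := by
  simp only [energy_eq_dot]
  exact Tame.sum _ fun e _ => Tame.const_mul _ (Tame.coord e)

lemma tame_bform' (m : ℕ) (s u : Fin n → Bool) : Tame (fun g : Cfg n => bform m g s u) := by
  have h : (fun g : Cfg n => bform m g s u) =
      fun g => (1 / (n : ℝ)) * ∑ a, ∑ b, spin (s a) * spin (u b) * uEnt m a b g := by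
    funext g
    rw [bform, one_div_mul_eq_div]
    congr 1
    exact Finset.sum_congr rfl fun a _ => Finset.sum_congr rfl fun b _ => by ring
  rw [h]
  exact Tame.const_mul _ (Tame.sum _ fun a _ => Tame.sum _ fun b _ =>
    Tame.const_mul _ (Tame.uEnt m a b))

lemma tame_cross (m : ℕ) (s u : Fin n → Bool) : Tame (fun g : Cfg n => cross m g s u) :=
  Tame.sum _ fun i _ => Tame.mul (tame_bform' i s u) (tame_bform' (m - 1 - i) u s)

lemma tame_interpH (β : ℝ) (m : ℕ) (t θ : ℝ) (u : Fin n → Bool) :
    Tame (fun g : Cfg n => interpH β m t θ g u) :=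
  Tame.add (Tame.const_mul _ (tame_energy' u))
    (Tame.const_mul _ (Tame.const_mul _ (tame_bform' m u u)))

lemma pd_interpH (hn : n ≠ 0) (β : ℝ) (m : ℕ) (t θ : ℝ) (u : Fin n → Bool) (e : Edge n) :
    pd e (fun g : Cfg n => interpH β m t θ g u) = fun g =>
      β * Real.sin θ * dEnergy u e + t * (β / 2) * pd e (quadU m u) g := by
  have h : (fun g : Cfg n => interpH β m t θ g u) = fun g =>
      β * Real.sin θ * energy g u + t * (β / 2) * quadU m u g := by
    funext g; rw [quadU_eq hn]; rfl
  rw [h, pd_add _ (Tame.const_mul _ (tame_energy' u)) (Tame.const_mul _ (tame_quadU m u)),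
    pd_const_mul _ _ (tame_energy' u), pd_const_mul _ _ (tame_quadU m u), pd_energy]

lemma dirE_interpH (hn : n ≠ 0) (β : ℝ) (m : ℕ) (t θ : ℝ) (g : Cfg n) (s u : Fin n → Bool) :
    dirE s (fun g : Cfg n => interpH β m t θ g u) g =
      β * Real.sin θ * (((n : ℝ) * bform 0 g s u ^ 2 - 1) / 2) +
        t * (β / 2) * ((n : ℝ) * cross m g s u - diagU m g u / (2 * n)) := by
  rw [← dirE_energy hn g s u, ← dirE_quadU hn m g s u]
  simp only [dirE, pd_interpH hn, pd_energy, Finset.mul_sum, ← Finset.sum_add_distrib]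
  exact Finset.sum_congr rfl fun e _ => by ring

end Vale.Agent.P146.Div.Guerra
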