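import Vale.Agent.P146.Div.Guerra.Tame
import Vale.Agent.P146.Div.Guerra.Spins
import Vale.Agent.P146.Div.Guerra.Leaves
import Vale.Agent.P168.Cascade.Basic

/-!
The random system of the interpolation on one probability space.
-/

noncomputable section

open MeasureTheory ProbabilityTheory Filter
open scoped BigOperators

namespace Vale.Agent.P146.Div.Guerra

open Vale.Agent.P157 (dot gam)
open Vale.Agent.P157.Parisi (Path)
open Vale.Agent.P157.Parisi.Up (leafVec Node)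
open Vale.Agent.P168 (CascTree cascLaw Shape)
open Vale.Agent.P168.Cascade (Leaf leafW GoodTree ae_good leafW_pos measurable_leafW)

variable {n k : ℕ} (ξ : Path) (nn : Fin ξ.r → ℕ)

/-- States of the interpolating system. -/
abbrev St (n : ℕ) : Type := (Fin n → Bool) × Leaf ξ.r nn

/-- The randomness of the interpolating system. -/
abbrev Rnd (n : ℕ) : Type := Cfg n × (CascTree Unit ξ.r nn × FieldVar ξ.r n nn)

/-- Its law. -/
def law (n : ℕ) : Measure (Rnd ξ nn n) := (gauss (Edge n)).prod (augLaw ξ n nn)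

instance (r n : ℕ) (m : Fin r → ℕ) : IsProbabilityMeasure (fieldLaw r n m) := by
  unfold fieldLaw gam; infer_instance

instance (n : ℕ) : IsProbabilityMeasure (augLaw ξ n nn) := by unfold augLaw; infer_instance

instance (n : ℕ) : IsProbabilityMeasure (law ξ nn n) := by unfold law; infer_instance

variable {ξ nn}

/-- The log-weight of a state. -/
def expo (β : ℝ) (m : ℕ) (t θ : ℝ) (ω : Rnd ξ nn n) (x : St ξ nn n) : ℝ :=
  interpH β m t θ ω.1 x.1 + β * Real.cos θ * fieldE ξ nn ω.2.2 x.1 x.2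

/-- The Gibbs probability of a state. -/
def wgt (β : ℝ) (m : ℕ) (t θ : ℝ) (ω : Rnd ξ nn n) (x : St ξ nn n) : ℝ :=
  jointGibbs ξ nn (interpH β m t θ ω.1) (β * Real.cos θ) ω.2 x

lemma joint_eq (β : ℝ) (m : ℕ) (t θ : ℝ) (ω : Rnd ξ nn n) (x : St ξ nn n) :
    joint ξ nn (interpH β m t θ ω.1) (β * Real.cos θ) ω.2 x =
      leafW ξ.r ξ.m nn ω.2.1 x.2 * Real.exp (expo β m t θ ω x) := rfl

lemma wgt_eq_div (β : ℝ) (m : ℕ) (t θ : ℝ) (ω : Rnd ξ nn n) (x : St ξ nn n) :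
    wgt β m t θ ω x = leafW ξ.r ξ.m nn ω.2.1 x.2 * Real.exp (expo β m t θ ω x) /
      ∑ y, leafW ξ.r ξ.m nn ω.2.1 y.2 * Real.exp (expo β m t θ ω y) := rfl

lemma ae_goodW : ∀ᵐ ω ∂law ξ nn n, GoodTree ξ.r nn ω.2.1 :=
  Measure.quasiMeasurePreserving_snd.ae
    (Measure.quasiMeasurePreserving_fst.ae (ae_good (Measure.dirac ()) ξ.r nn))

lemma wgt_nonneg {ω : Rnd ξ nn n} (hω : GoodTree ξ.r nn ω.2.1) (β : ℝ) (m : ℕ) (t θ : ℝ)
    (x : St ξ nn n) : 0 ≤ wgt β m t θ ω x := by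
  rw [wgt_eq_div]
  exact div_nonneg (mul_nonneg (leafW_pos _ _ _ _ _ hω).le (Real.exp_pos _).le)
    (Finset.sum_nonneg fun y _ => mul_nonneg (leafW_pos _ _ _ _ _ hω).le (Real.exp_pos _).le)

lemma sum_wgt_le {ω : Rnd ξ nn n} (β : ℝ) (m : ℕ) (t θ : ℝ) :
    ∑ x, wgt β m t θ ω x ≤ 1 := by
  simp only [wgt_eq_div, ← Finset.sum_div]
  exact div_self_le_one _

lemma nonempty_st (hnn : ∀ i, 0 < nn i) : Nonempty (St ξ nn n) :=
  ⟨(fun _ => true, fun i => ⟨0, hnn i⟩)⟩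

lemma sum_wgt (hnn : ∀ i, 0 < nn i) {ω : Rnd ξ nn n} (hω : GoodTree ξ.r nn ω.2.1) (β : ℝ) (m : ℕ)
    (t θ : ℝ) : ∑ x, wgt β m t θ ω x = 1 := by
  have := nonempty_st (ξ := ξ) (n := n) hnn
  simp only [wgt_eq_div, ← Finset.sum_div]
  exact div_self (ne_of_gt (Finset.sum_pos
    (fun y _ => mul_pos (leafW_pos _ _ _ _ _ hω) (Real.exp_pos _)) Finset.univ_nonempty))

/-- The average of an observable of `k` replicas. -/
def avg (β : ℝ) (m : ℕ) (t θ : ℝ) (Φ : Cfg n → (Fin k → St ξ nn n) → ℝ) (ω : Rnd ξ nn n) : ℝ :=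
  ∑ x : Fin k → St ξ nn n, (∏ a, wgt β m t θ ω (x a)) * Φ ω.1 x

lemma continuous_fieldE (s : Fin n → Bool) (l : Leaf ξ.r nn) :
    Continuous fun γ : FieldVar ξ.r n nn => fieldE ξ nn γ s l := by
  unfold fieldE dot; fun_prop

lemma measurable_expo (β : ℝ) (m : ℕ) (t : ℝ) (x : St ξ nn n) :
    Measurable fun p : ℝ × Rnd ξ nn n => expo β m t p.1 p.2 x := by
  have h1 : Measurable fun p : ℝ × Rnd ξ nn n => energy p.2.1 x.1 :=
    ((tame_energy' x.1).continuous.measurable).comp (measurable_fst.comp measurable_snd)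
  have h2 : Measurable fun p : ℝ × Rnd ξ nn n => bform m p.2.1 x.1 x.1 :=
    ((tame_bform' m x.1 x.1).continuous.measurable).comp (measurable_fst.comp measurable_snd)
  have h3 : Measurable fun p : ℝ × Rnd ξ nn n => fieldE ξ nn p.2.2.2 x.1 x.2 :=
    (continuous_fieldE x.1 x.2).measurable.comp
      (measurable_snd.comp (measurable_snd.comp measurable_snd))
  unfold expo interpH
  exact ((((Real.measurable_sin.comp measurable_fst).const_mul β).mul h1).add
    ((h2.const_mul (n : ℝ)).const_mul (t * (β / 2)))).add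
      (((Real.measurable_cos.comp measurable_fst).const_mul β).mul h3)

lemma measurable_jointSum (β : ℝ) (m : ℕ) (t : ℝ) (x : St ξ nn n) :
    Measurable fun p : ℝ × Rnd ξ nn n =>
      leafW ξ.r ξ.m nn p.2.2.1 x.2 * Real.exp (expo β m t p.1 p.2 x) :=
  ((measurable_leafW ξ.r ξ.m nn x.2).comp
    (measurable_fst.comp (measurable_snd.comp measurable_snd))).mul (measurable_expo β m t x).exp

lemma measurable_wgt (β : ℝ) (m : ℕ) (t : ℝ) (x : St ξ nn n) :
    Measurable fun p : ℝ × Rnd ξ nn n => wgt β m t p.1 p.2 x :=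
  (measurable_jointSum β m t x).div (Finset.measurable_sum _ fun y _ => measurable_jointSum β m t y)

lemma measurable_wgt' (β : ℝ) (m : ℕ) (t θ : ℝ) (x : St ξ nn n) :
    Measurable fun ω : Rnd ξ nn n => wgt β m t θ ω x :=
  Measurable.comp (g := fun p : ℝ × Rnd ξ nn n => wgt β m t p.1 p.2 x)
    (f := fun ω : Rnd ξ nn n => (θ, ω)) (measurable_wgt β m t x)
    (measurable_const.prodMk measurable_id)

lemma measurable_avg (β : ℝ) (m : ℕ) (t θ : ℝ) {Φ : Cfg n → (Fin k → St ξ nn n) → ℝ}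
    (hΦ : ∀ x, Tame fun g => Φ g x) : Measurable (avg β m t θ Φ) :=
  Finset.measurable_sum _ fun x _ =>
    (Finset.measurable_prod _ fun a _ => measurable_wgt' β m t θ (x a)).mul
      ((hΦ x).continuous.measurable.comp measurable_fst)

lemma prod_wgt_mem {ω : Rnd ξ nn n} (hω : GoodTree ξ.r nn ω.2.1) (β : ℝ) (m : ℕ) (t θ : ℝ)
    (x : Fin k → St ξ nn n) :
    0 ≤ ∏ a, wgt β m t θ ω (x a) ∧ ∏ a, wgt β m t θ ω (x a) ≤ 1 :=
  ⟨Finset.prod_nonneg fun a _ => wgt_nonneg hω β m t θ _,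
    Finset.prod_le_one (fun a _ => wgt_nonneg hω β m t θ _) fun a _ =>
      (Finset.single_le_sum (fun y _ => wgt_nonneg hω β m t θ y) (Finset.mem_univ (x a))).trans
        (sum_wgt_le β m t θ)⟩

lemma abs_avg_le {ω : Rnd ξ nn n} (hω : GoodTree ξ.r nn ω.2.1) (β : ℝ) (m : ℕ) (t θ : ℝ)
    {Φ : Cfg n → (Fin k → St ξ nn n) → ℝ} {B : ℝ} (hB : ∀ x, |Φ ω.1 x| ≤ B) (hB0 : 0 ≤ B) :
    |avg β m t θ Φ ω| ≤ B := by
  refine (Finset.abs_sum_le_sum_abs _ _).trans ?_
  calc ∑ x : Fin k → St ξ nn n, |(∏ a, wgt β m t θ ω (x a)) * Φ ω.1 x|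
      ≤ ∑ x : Fin k → St ξ nn n, (∏ a, wgt β m t θ ω (x a)) * B :=
        Finset.sum_le_sum fun x _ => by
          rw [abs_mul, abs_of_nonneg (prod_wgt_mem hω β m t θ x).1]
          exact mul_le_mul_of_nonneg_left (hB x) (prod_wgt_mem hω β m t θ x).1
    _ = (∑ y, wgt β m t θ ω y) ^ k * B := by
        rw [← Finset.sum_mul, ← Fintype.prod_sum, Finset.prod_const, Finset.card_univ,
          Fintype.card_fin]
    _ ≤ 1 * B := mul_le_mul_of_nonneg_right (pow_le_one₀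
        (Finset.sum_nonneg fun y _ => wgt_nonneg hω β m t θ y) (sum_wgt_le β m t θ)) hB0
    _ = B := one_mul B

lemma avg_congr (β : ℝ) (m : ℕ) (t θ : ℝ) {Φ Ψ : Cfg n → (Fin k → St ξ nn n) → ℝ} {ω : Rnd ξ nn n}
    (h : ∀ x, Φ ω.1 x = Ψ ω.1 x) : avg β m t θ Φ ω = avg β m t θ Ψ ω := by
  simp only [avg, h]

lemma integrable_avg (β : ℝ) (m : ℕ) (t θ : ℝ) {Φ : Cfg n → (Fin k → St ξ nn n) → ℝ}
    (hΦ : ∀ x, Tame fun g => Φ g x) : Integrable (avg β m t θ Φ) (law ξ nn n) := by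
  have hB : Integrable (fun ω : Rnd ξ nn n => ∑ x, |Φ ω.1 x|) (law ξ nn n) :=
    (integrable_finsetSum Finset.univ fun x _ => (hΦ x).integrable.abs).comp_fst _
  refine hB.mono' (measurable_avg β m t θ hΦ).aestronglyMeasurable (ae_goodW.mono fun ω hω => ?_)
  rw [Real.norm_eq_abs]
  exact abs_avg_le hω β m t θ (fun x => Finset.single_le_sum (f := fun y => |Φ ω.1 y|)
    (fun y _ => abs_nonneg _) (Finset.mem_univ x)) (Finset.sum_nonneg fun y _ => abs_nonneg _)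

/-- The mean over the system is an integral on the product space. -/
theorem stateMean_eq (β : ℝ) (m : ℕ) (t θ : ℝ) {Φ : Cfg n → (Fin k → St ξ nn n) → ℝ}
    (hΦ : ∀ x, Tame fun g => Φ g x) :
    stateMean ξ nn β m t θ Φ = ∫ ω, avg β m t θ Φ ω ∂law ξ nn n :=
  (integral_prod _ (integrable_avg β m t θ hΦ)).symm

lemma avg_one (β : ℝ) (m : ℕ) (t θ : ℝ) (F : Cfg n → St ξ nn n → ℝ) (ω : Rnd ξ nn n) :
    avg β m t θ (fun g (x : Fin 1 → St ξ nn n) => F g (x 0)) ω =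
      ∑ x, wgt β m t θ ω x * F ω.1 x := by
  rw [avg, ← (Equiv.funUnique (Fin 1) (St ξ nn n)).symm.sum_comp]
  simp

lemma avg_two (β : ℝ) (m : ℕ) (t θ : ℝ) (F : Cfg n → St ξ nn n → St ξ nn n → ℝ)
    (ω : Rnd ξ nn n) :
    avg β m t θ (fun g (x : Fin 2 → St ξ nn n) => F g (x 0) (x 1)) ω =
      ∑ x, ∑ y, wgt β m t θ ω x * wgt β m t θ ω y * F ω.1 x y := by
  rw [avg, ← (piFinTwoEquiv fun _ => St ξ nn n).symm.sum_comp, Fintype.sum_prod_type]
  simp [Fin.prod_univ_two]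

lemma fieldE_eq_dot (γ : FieldVar ξ.r n nn) (x : St ξ nn n) :
    fieldE ξ nn γ x.1 x.2 =
      ∑ p : Fin n × Option (Node ξ.r nn), spin (x.1 p.1) * leafVec nn ξ.q x.2 p.2 * γ p.1 p.2 := by
  simp only [fieldE, dot, Finset.mul_sum, Fintype.sum_prod_type]
  exact Finset.sum_congr rfl fun i _ => Finset.sum_congr rfl fun c _ => by ring

lemma integrable_fieldE (x : St ξ nn n) :
    Integrable (fun ω : Rnd ξ nn n => fieldE ξ nn ω.2.2 x.1 x.2) (law ξ nn n) := by
  have hid : Integrable (fun u : ℝ => u) (gaussianReal 0 1) :=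
    (memLp_id_gaussianReal' 1 (by simp)).integrable le_rfl
  have hc : ∀ (i : Fin n) (c : Option (Node ξ.r nn)),
      Integrable (fun γ : FieldVar ξ.r n nn => γ i c) (fieldLaw ξ.r n nn) := fun i c =>
    ((measurePreserving_eval (fun _ : Option (Node ξ.r nn) => gaussianReal 0 1) c).comp
      (measurePreserving_eval (fun _ : Fin n => gam (Option (Node ξ.r nn))) i))
        |>.integrable_comp_of_integrable hid
  have h : Integrable (fun γ : FieldVar ξ.r n nn => fieldE ξ nn γ x.1 x.2)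
      (fieldLaw ξ.r n nn) := by
    simp only [fieldE_eq_dot]
    exact integrable_finsetSum _ fun p _ => (hc p.1 p.2).const_mul _
  exact (h.comp_snd _).comp_snd _

lemma integrable_energy (s : Fin n → Bool) :
    Integrable (fun ω : Rnd ξ nn n => energy ω.1 s) (law ξ nn n) :=
  (tame_energy' s).integrable.comp_fst _

end Vale.Agent.P146.Div.Guerra
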