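import Vale.Agent.P146.Calc

/-!
Gibbs weights with tame log-weights are tame; integration by parts against them.
-/

noncomputable section

open MeasureTheory ProbabilityTheory
open scoped BigOperators

namespace Vale.Agent.P146.Div.Guerra

variable {ι X : Type*} [Fintype ι] [DecidableEq ι] [Fintype X] [Nonempty X]

/-- The Gibbs weight of a state for log-weights `H`. -/
def sm (H : X → (ι → ℝ) → ℝ) (x : X) (g : ι → ℝ) : ℝ :=
  Real.exp (H x g) / ∑ y, Real.exp (H y g)

omit [Fintype ι] [DecidableEq ι] in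
lemma sm_den_pos (H : X → (ι → ℝ) → ℝ) (g : ι → ℝ) : 0 < ∑ y, Real.exp (H y g) :=
  Finset.sum_pos (fun _ _ => Real.exp_pos _) Finset.univ_nonempty

omit [Fintype ι] [DecidableEq ι] in
lemma sm_nonneg (H : X → (ι → ℝ) → ℝ) (x : X) (g : ι → ℝ) : 0 ≤ sm H x g :=
  div_nonneg (Real.exp_pos _).le (sm_den_pos H g).le

omit [Fintype ι] [DecidableEq ι] in
lemma sum_sm (H : X → (ι → ℝ) → ℝ) (g : ι → ℝ) : ∑ x, sm H x g = 1 := by
  simp only [sm, ← Finset.sum_div]
  exact div_self (sm_den_pos H g).ne'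

omit [Fintype ι] [DecidableEq ι] in
lemma sm_le_one (H : X → (ι → ℝ) → ℝ) (x : X) (g : ι → ℝ) : sm H x g ≤ 1 :=
  (sum_sm H g) ▸ Finset.single_le_sum (fun y _ => sm_nonneg H y g) (Finset.mem_univ x)

variable {H : X → (ι → ℝ) → ℝ}

lemma contDiff_sm (hH : ∀ x, Tame (H x)) (x : X) : ContDiff ℝ (⊤ : ℕ∞) (sm H x) :=
  ((hH x).1.exp).div (ContDiff.sum fun y _ => (hH y).1.exp) fun g => (sm_den_pos H g).ne'

lemma pd_sm (hH : ∀ x, Tame (H x)) (x : X) (e : ι) :
    pd e (sm H x) = fun g => sm H x g * (pd e (H x) g - ∑ y, sm H y g * pd e (H y) g) := by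
  funext g
  have hd : ∀ y, HasFDerivAt (H y) (fderiv ℝ (H y) g) g := fun y =>
    (differentiable_of_smooth (hH y).1 g).hasFDerivAt
  have hz : HasFDerivAt (fun g => ∑ y, Real.exp (H y g))
      (∑ y, Real.exp (H y g) • fderiv ℝ (H y) g) g :=
    HasFDerivAt.fun_sum fun y _ => (hd y).exp
  have h := (hd x).exp.fun_mul ((hasDerivAt_inv (sm_den_pos H g).ne').comp_hasFDerivAt g hz)
  have h' : HasFDerivAt (sm H x) _ g := h
  show fderiv ℝ (sm H x) g (Pi.single e 1) = _
  rw [h'.fderiv]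
  simp only [FunLike.coe_add, Pi.add_apply, ContinuousLinearMap.smul_apply, FunLike.coe_sum,
    Finset.sum_apply, smul_eq_mul, Function.comp_apply, pd, sm]
  simp only [div_mul_eq_mul_div, ← Finset.sum_div]
  have := (sm_den_pos H g).ne'
  field_simp
  ring

/-- Polynomials in the weights with tame coefficients. -/
inductive SPoly (H : X → (ι → ℝ) → ℝ) : ((ι → ℝ) → ℝ) → Prop
  | coef {f : (ι → ℝ) → ℝ} : Tame f → SPoly H f
  | weight (x : X) : SPoly H (sm H x)
  | add {f h : (ι → ℝ) → ℝ} : SPoly H f → SPoly H h → SPoly H (fun g => f g + h g)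
  | mul {f h : (ι → ℝ) → ℝ} : SPoly H f → SPoly H h → SPoly H (fun g => f g * h g)

omit [Nonempty X] in
lemma SPoly.sum {α : Type*} (S : Finset α) {f : α → (ι → ℝ) → ℝ}
    (hf : ∀ a ∈ S, SPoly H (f a)) : SPoly H (fun g => ∑ a ∈ S, f a g) := by
  induction S using Finset.cons_induction with
  | empty => simpa using SPoly.coef (H := H) (Tame.const (ι := ι) 0)
  | cons a S ha ih =>
    simp only [Finset.sum_cons]
    exact .add (hf a (by simp)) (ih fun b hb => hf b (by simp [hb]))

lemma SPoly.contDiff (hH : ∀ x, Tame (H x)) {f : (ι → ℝ) → ℝ} (hf : SPoly H f) :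
    ContDiff ℝ (⊤ : ℕ∞) f := by
  induction hf with
  | coef h => exact h.1
  | weight x => exact contDiff_sm hH x
  | add _ _ h1 h2 => exact h1.add h2
  | mul _ _ h1 h2 => exact h1.mul h2

lemma SPoly.polyBd {f : (ι → ℝ) → ℝ} (hf : SPoly H f) : PolyBd f := by
  induction hf with
  | coef h => exact h.polyBd []
  | weight x =>
    exact ⟨1, 0, fun g => by rw [abs_of_nonneg (sm_nonneg H x g)]; simpa using sm_le_one H x g⟩
  | add _ _ h1 h2 => exact h1.add h2
  | mul _ _ h1 h2 => exact h1.mul h2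

lemma SPoly.pd (hH : ∀ x, Tame (H x)) {f : (ι → ℝ) → ℝ} (hf : SPoly H f) (e : ι) :
    SPoly H (P146.pd e f) := by
  induction hf with
  | coef h => exact .coef (h.pd e)
  | weight x =>
    rw [pd_sm hH]
    simp only [sub_eq_add_neg, ← neg_one_mul (∑ y, _)]
    exact .mul (.weight x) (.add (.coef ((hH x).pd e))
      (.mul (.coef (Tame.const _))
        (SPoly.sum Finset.univ fun y _ => .mul (.weight y) (.coef ((hH y).pd e)))))
  | add hf hh h1 h2 => rw [pd_add_smooth e (hf.contDiff hH) (hh.contDiff hH)]; exact .add h1 h2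
  | mul hf hh h1 h2 =>
    rw [pd_mul_smooth e (hf.contDiff hH) (hh.contDiff hH)]
    exact .add (.mul h1 hh) (.mul hf h2)

lemma SPoly.pdL (hH : ∀ x, Tame (H x)) : ∀ (L : List ι) {f : (ι → ℝ) → ℝ},
    SPoly H f → SPoly H (P146.pdL L f)
  | [], _, hf => hf
  | e :: L, _, hf => SPoly.pdL hH L (hf.pd hH e)

lemma SPoly.tame (hH : ∀ x, Tame (H x)) {f : (ι → ℝ) → ℝ} (hf : SPoly H f) : Tame f :=
  ⟨hf.contDiff hH, fun L => (hf.pdL hH L).polyBd⟩

lemma tame_sm (hH : ∀ x, Tame (H x)) (x : X) : Tame (sm H x) := (SPoly.weight x).tame hH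

/-- Integration by parts for the mean of a linear form. -/
theorem sm_ibp (hH : ∀ x, Tame (H x)) (a : X → ι → ℝ) :
    ∫ g, ∑ x, sm H x g * (∑ e, a x e * g e) ∂gauss ι =
      ∫ g, (∑ x, sm H x g * (∑ e, a x e * pd e (H x) g)) -
        ∑ x, ∑ y, sm H x g * sm H y g * (∑ e, a x e * pd e (H y) g) ∂gauss ι := by
  have hw := tame_sm hH
  have hpd : ∀ y e, Tame (pd e (H y)) := fun y e => (hH y).pd e
  have hl : ∀ g, ∑ x, sm H x g * (∑ e, a x e * g e) =
      ∑ x, ∑ e, a x e * (g e * sm H x g) := fun g => by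
    simp only [Finset.mul_sum]
    exact Finset.sum_congr rfl fun x _ => Finset.sum_congr rfl fun e _ => by ring
  have hr : ∀ g, (∑ x, sm H x g * (∑ e, a x e * pd e (H x) g)) -
        ∑ x, ∑ y, sm H x g * sm H y g * (∑ e, a x e * pd e (H y) g) =
      ∑ x, ∑ e, a x e * pd e (sm H x) g := fun g => by
    rw [← Finset.sum_sub_distrib]
    refine Finset.sum_congr rfl fun x _ => ?_
    simp only [pd_sm hH, mul_sub, Finset.mul_sum, Finset.sum_sub_distrib]
    congr 1
    · exact Finset.sum_congr rfl fun e _ => by ring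
    · rw [Finset.sum_comm]
      exact Finset.sum_congr rfl fun e _ => Finset.sum_congr rfl fun y _ => by ring
  simp only [hl, hr]
  have i1 : ∀ x e, Integrable (fun g => a x e * (g e * sm H x g)) (gauss ι) := fun x e =>
    (((Tame.coord e).mul (hw x)).const_mul _).integrable
  have i2 : ∀ x e, Integrable (fun g => a x e * pd e (sm H x) g) (gauss ι) := fun x e =>
    (((hw x).pd e).const_mul _).integrable
  rw [integral_finsetSum _ fun x _ => integrable_finsetSum _ fun e _ => i1 x e,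
    integral_finsetSum _ fun x _ => integrable_finsetSum _ fun e _ => i2 x e]
  refine Finset.sum_congr rfl fun x _ => ?_
  rw [integral_finsetSum _ fun e _ => i1 x e, integral_finsetSum _ fun e _ => i2 x e]
  exact Finset.sum_congr rfl fun e _ => by
    rw [integral_const_mul, integral_const_mul, gauss_ibp (hw x) e]

end Vale.Agent.P146.Div.Guerra
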