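import Vale.Agent.P146.Div.Guerra.Ibp

/-!
The interpolation in the angle.
-/

noncomputable section

open MeasureTheory ProbabilityTheory Filter
open scoped BigOperators

namespace Vale.Agent.P146.Div.Guerra

open Vale.Agent.P157.Parisi (Path)
open Vale.Agent.P168 (CascTree cascLaw Shape)
open Vale.Agent.P168.Cascade (Leaf leafW GoodTree leafW_pos measurable_leafW)

variable {n : ℕ} (ξ : Path) (nn : Fin ξ.r → ℕ) (β : ℝ) (m : ℕ) (t θ : ℝ)

/-- The normalised log-partition function. -/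
def logZ (ω : Rnd ξ nn n) : ℝ :=
  Real.log (∑ x : St ξ nn n, leafW ξ.r ξ.m nn ω.2.1 x.2 * Real.exp (expo β m t θ ω x)) -
    Real.log (∑ l, leafW ξ.r ξ.m nn ω.2.1 l)

/-- Its derivative in the angle. -/
def dLogZ (ω : Rnd ξ nn n) : ℝ :=
  ∑ x : St ξ nn n, wgt β m t θ ω x *
    (β * Real.cos θ * energy ω.1 x.1 - β * Real.sin θ * fieldE ξ nn ω.2.2 x.1 x.2)

/-- The interpolating pressure. -/
def phi (n : ℕ) : ℝ := (∫ ω, logZ (n := n) ξ nn β m t θ ω ∂law ξ nn n) / n

/-- Its derivative. -/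
def dphi (n : ℕ) : ℝ := (∫ ω, dLogZ (n := n) ξ nn β m t θ ω ∂law ξ nn n) / n

/-- A bound on the derivative. -/
def domZ (ω : Rnd ξ nn n) : ℝ :=
  ∑ x : St ξ nn n, |β| * (|energy ω.1 x.1| + |fieldE ξ nn ω.2.2 x.1 x.2|)

variable {ξ nn}

lemma hasDerivAt_logZ (hnn : ∀ i, 0 < nn i) {ω : Rnd ξ nn n} (hω : GoodTree ξ.r nn ω.2.1) :
    HasDerivAt (fun θ => logZ ξ nn β m t θ ω) (dLogZ ξ nn β m t θ ω) θ := by
  have := nonempty_st (ξ := ξ) (n := n) hnn
  have hpos : 0 < ∑ x : St ξ nn n, leafW ξ.r ξ.m nn ω.2.1 x.2 * Real.exp (expo β m t θ ω x) :=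
    Finset.sum_pos (fun x _ => mul_pos (leafW_pos _ _ _ _ _ hω) (Real.exp_pos _))
      Finset.univ_nonempty
  have he : ∀ x : St ξ nn n, HasDerivAt (fun θ => expo β m t θ ω x)
      (β * Real.cos θ * energy ω.1 x.1 - β * Real.sin θ * fieldE ξ nn ω.2.2 x.1 x.2) θ := by
    intro x
    have h1 := ((((Real.hasDerivAt_sin θ).const_mul β).mul_const (energy ω.1 x.1)).add_const
      (t * (β / 2) * ((n : ℝ) * bform m ω.1 x.1 x.1))).add
      (((Real.hasDerivAt_cos θ).const_mul β).mul_const (fieldE ξ nn ω.2.2 x.1 x.2))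
    exact h1.congr_deriv (by ring)
  have hsum : HasDerivAt (fun θ => ∑ x : St ξ nn n,
      leafW ξ.r ξ.m nn ω.2.1 x.2 * Real.exp (expo β m t θ ω x))
      (∑ x : St ξ nn n, leafW ξ.r ξ.m nn ω.2.1 x.2 * (Real.exp (expo β m t θ ω x) *
        (β * Real.cos θ * energy ω.1 x.1 - β * Real.sin θ * fieldE ξ nn ω.2.2 x.1 x.2))) θ :=
    HasDerivAt.fun_sum fun x _ => (he x).exp.const_mul _
  refine ((hsum.log hpos.ne').sub_const _).congr_deriv ?_
  simp only [dLogZ, wgt_eq_div, div_mul_eq_mul_div, ← Finset.sum_div, mul_assoc]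

lemma measurable_dLogZ : Measurable fun p : ℝ × Rnd ξ nn n => dLogZ ξ nn β m t p.1 p.2 := by
  refine Finset.measurable_sum _ fun x _ => (measurable_wgt β m t x).mul (Measurable.sub ?_ ?_)
  · exact ((Real.measurable_cos.comp measurable_fst).const_mul β).mul
      ((tame_energy' x.1).continuous.measurable.comp (measurable_fst.comp measurable_snd))
  · exact ((Real.measurable_sin.comp measurable_fst).const_mul β).mul
      ((continuous_fieldE x.1 x.2).measurable.comp
        (measurable_snd.comp (measurable_snd.comp measurable_snd)))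

lemma abs_dLogZ_le {ω : Rnd ξ nn n} (hω : GoodTree ξ.r nn ω.2.1) :
    |dLogZ ξ nn β m t θ ω| ≤ domZ ξ nn β ω := by
  refine (Finset.abs_sum_le_sum_abs _ _).trans (Finset.sum_le_sum fun x _ => ?_)
  rw [abs_mul, abs_of_nonneg (wgt_nonneg hω β m t θ x)]
  refine (mul_le_of_le_one_left (abs_nonneg _)
    ((Finset.single_le_sum (fun y _ => wgt_nonneg hω β m t θ y) (Finset.mem_univ x)).trans
      (sum_wgt_le β m t θ))).trans ((abs_sub _ _).trans ?_)
  rw [mul_add, abs_mul, abs_mul, abs_mul, abs_mul]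
  have h1 := Real.abs_cos_le_one θ
  have h2 := Real.abs_sin_le_one θ
  gcongr
  · exact mul_le_of_le_one_right (abs_nonneg _) h1
  · exact mul_le_of_le_one_right (abs_nonneg _) h2

lemma integrable_domZ : Integrable (domZ (n := n) ξ nn β) (law ξ nn n) :=
  integrable_finsetSum _ fun x _ =>
    (((integrable_energy x.1).abs).add (integrable_fieldE x).abs).const_mul _

lemma measurable_logZ : Measurable (logZ (n := n) ξ nn β m t θ) :=
  (Finset.measurable_sum _ fun x _ => Measurable.comp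
    (g := fun p : ℝ × Rnd ξ nn n => leafW ξ.r ξ.m nn p.2.2.1 x.2 * Real.exp (expo β m t p.1 p.2 x))
    (f := fun ω : Rnd ξ nn n => (θ, ω)) (measurable_jointSum β m t x)
    (measurable_const.prodMk measurable_id)).log.sub
  (Finset.measurable_sum _ fun l _ => (measurable_leafW ξ.r ξ.m nn l).comp
    (measurable_fst.comp measurable_snd)).log

lemma sum_leafW_prod (hω : CascTree Unit ξ.r nn) :
    ∑ x : St ξ nn n, leafW ξ.r ξ.m nn hω x.2 = (2 : ℝ) ^ n * ∑ l, leafW ξ.r ξ.m nn hω l := by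
  rw [Fintype.sum_prod_type]
  simp

lemma abs_logZ_le (hnn : ∀ i, 0 < nn i) {ω : Rnd ξ nn n} (hω : GoodTree ξ.r nn ω.2.1) :
    |logZ ξ nn β m t θ ω| ≤ n * Real.log 2 + ∑ x : St ξ nn n, |expo β m t θ ω x| := by
  have := nonempty_st (ξ := ξ) (n := n) hnn
  have : Nonempty (Leaf ξ.r nn) := ⟨fun i => ⟨0, hnn i⟩⟩
  set M := ∑ x : St ξ nn n, |expo β m t θ ω x| with hM
  set W := ∑ l, leafW ξ.r ξ.m nn ω.2.1 l with hW
  have hWpos : 0 < W :=
    Finset.sum_pos (fun l _ => leafW_pos _ _ _ _ _ hω) Finset.univ_nonempty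
  have hb : ∀ x : St ξ nn n, -M ≤ expo β m t θ ω x ∧ expo β m t θ ω x ≤ M := fun x =>
    abs_le.1 (Finset.single_le_sum (f := fun y => |expo β m t θ ω y|) (fun y _ => abs_nonneg _)
      (Finset.mem_univ x))
  have h2 : (0 : ℝ) < 2 ^ n := by positivity
  have hup : ∑ x : St ξ nn n, leafW ξ.r ξ.m nn ω.2.1 x.2 * Real.exp (expo β m t θ ω x) ≤
      2 ^ n * W * Real.exp M := by
    rw [hW, ← sum_leafW_prod, Finset.sum_mul]
    exact Finset.sum_le_sum fun x _ => mul_le_mul_of_nonneg_left (Real.exp_le_exp.2 (hb x).2)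
      (leafW_pos _ _ _ _ _ hω).le
  have hlo : 2 ^ n * W * Real.exp (-M) ≤
      ∑ x : St ξ nn n, leafW ξ.r ξ.m nn ω.2.1 x.2 * Real.exp (expo β m t θ ω x) := by
    rw [hW, ← sum_leafW_prod, Finset.sum_mul]
    exact Finset.sum_le_sum fun x _ => mul_le_mul_of_nonneg_left (Real.exp_le_exp.2 (hb x).1)
      (leafW_pos _ _ _ _ _ hω).le
  have e1 := Real.log_le_log (by positivity) hlo
  have e2 := Real.log_le_log ((by positivity : (0:ℝ) < 2 ^ n * W * Real.exp (-M)).trans_le hlo) hup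
  rw [Real.log_mul (by positivity) (Real.exp_pos _).ne', Real.log_mul h2.ne' hWpos.ne',
    Real.log_pow, Real.log_exp] at e1 e2
  have hl : 0 ≤ (n : ℝ) * Real.log 2 := mul_nonneg (Nat.cast_nonneg n) (Real.log_nonneg one_le_two)
  rw [logZ, abs_le]
  constructor <;> linarith

lemma integrable_logZ (hnn : ∀ i, 0 < nn i) :
    Integrable (logZ (n := n) ξ nn β m t θ) (law ξ nn n) := by
  have he : ∀ x : St ξ nn n, Integrable (fun ω : Rnd ξ nn n => expo β m t θ ω x) (law ξ nn n) :=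
    fun x => ((tame_interpH β m t θ x.1).integrable.comp_fst _).add
      ((integrable_fieldE x).const_mul _)
  refine ((integrable_const ((n : ℝ) * Real.log 2)).add
    (integrable_finsetSum Finset.univ fun x _ => (he x).abs)).mono'
    (measurable_logZ β m t θ).aestronglyMeasurable (ae_goodW.mono fun ω hω => ?_)
  rw [Real.norm_eq_abs]
  simpa using abs_logZ_le β m t θ hnn hω

lemma measurable_dphi : Measurable fun θ => dphi ξ nn β m t θ n :=
  ((measurable_dLogZ (n := n) β m t).stronglyMeasurable.integral_prod_right'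
    (ν := law ξ nn n)).measurable.div_const _

/-- The fundamental theorem of calculus along the interpolation. -/
theorem phi_diff (hnn : ∀ i, 0 < nn i) :
    phi ξ nn β m t (Real.pi / 2) n - phi ξ nn β m t 0 n =
      ∫ θ in (0 : ℝ)..Real.pi / 2, dphi ξ nn β m t θ n := by
  have hpi : (0 : ℝ) ≤ Real.pi / 2 := by positivity
  have hpt : ∀ᵐ ω ∂law ξ nn n, logZ ξ nn β m t (Real.pi / 2) ω - logZ ξ nn β m t 0 ω =
      ∫ θ in Set.Ioc (0 : ℝ) (Real.pi / 2), dLogZ ξ nn β m t θ ω := by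
    filter_upwards [ae_goodW] with ω hω
    have hint : IntegrableOn (fun θ => dLogZ ξ nn β m t θ ω) (Set.Ioc (0 : ℝ) (Real.pi / 2)) := by
      refine Measure.integrableOn_of_bounded (by simp) ?_
        (ae_of_all _ fun θ => (Real.norm_eq_abs _).trans_le (abs_dLogZ_le β m t θ hω))
      exact (Measurable.comp (g := fun p : ℝ × Rnd ξ nn n => dLogZ ξ nn β m t p.1 p.2)
        (f := fun θ => (θ, ω)) (measurable_dLogZ β m t)
        (measurable_id.prodMk measurable_const)).aestronglyMeasurable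
    rw [← intervalIntegral.integral_of_le hpi]
    exact (intervalIntegral.integral_eq_sub_of_hasDerivAt
      (fun θ _ => hasDerivAt_logZ β m t θ hnn hω)
      ((intervalIntegrable_iff_integrableOn_Ioc_of_le hpi).2 hint)).symm
  have hprod : Integrable (fun p : Rnd ξ nn n × ℝ => dLogZ ξ nn β m t p.2 p.1)
      ((law ξ nn n).prod (volume.restrict (Set.Ioc (0 : ℝ) (Real.pi / 2)))) := by
    refine ((integrable_domZ β).comp_fst _).mono' ?_ ?_
    · exact (Measurable.comp (g := fun p : ℝ × Rnd ξ nn n => dLogZ ξ nn β m t p.1 p.2)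
        (f := fun p : Rnd ξ nn n × ℝ => (p.2, p.1)) (measurable_dLogZ β m t)
        (measurable_snd.prodMk measurable_fst)).aestronglyMeasurable
    · exact (Measure.quasiMeasurePreserving_fst.ae ae_goodW).mono fun p hp =>
        (Real.norm_eq_abs _).trans_le (abs_dLogZ_le β m t p.2 hp)
  rw [intervalIntegral.integral_of_le hpi]
  simp only [phi, dphi]
  rw [integral_div, ← sub_div,
    ← integral_sub (integrable_logZ β m t _ hnn) (integrable_logZ β m t _ hnn),
    integral_congr_ae hpt, integral_integral_swap hprod]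

theorem phi_top (hn : n ≠ 0) (hnn : ∀ i, 0 < nn i) :
    phi ξ nn β m t (Real.pi / 2) n = tiltP n β m t := by
  have h : ∀ᵐ ω ∂law ξ nn n, logZ ξ nn β m t (Real.pi / 2) ω =
      Real.log (∑ s : Fin n → Bool, Real.exp (tiltE β m t ω.1 s)) := by
    filter_upwards [ae_goodW] with ω hω
    have : Nonempty (Leaf ξ.r nn) := ⟨fun i => ⟨0, hnn i⟩⟩
    have hW : 0 < ∑ l, leafW ξ.r ξ.m nn ω.2.1 l :=
      Finset.sum_pos (fun l _ => leafW_pos _ _ _ _ _ hω) Finset.univ_nonempty
    have hS : 0 < ∑ s : Fin n → Bool, Real.exp (tiltE β m t ω.1 s) :=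
      Finset.sum_pos (fun s _ => Real.exp_pos _) Finset.univ_nonempty
    have e : ∑ x : St ξ nn n, leafW ξ.r ξ.m nn ω.2.1 x.2 *
        Real.exp (expo β m t (Real.pi / 2) ω x) =
          (∑ s : Fin n → Bool, Real.exp (tiltE β m t ω.1 s)) *
            ∑ l, leafW ξ.r ξ.m nn ω.2.1 l := by
      rw [Fintype.sum_prod_type, Finset.sum_mul]
      refine Finset.sum_congr rfl fun s _ => ?_
      rw [Finset.mul_sum]
      refine Finset.sum_congr rfl fun l _ => ?_
      simp [expo, interpH, tiltE, mul_comm]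
    rw [logZ, e, Real.log_mul hS.ne' hW.ne', add_sub_cancel_right]
  rw [phi, integral_congr_ae h, law,
    integral_fun_fst fun g : Cfg n => Real.log (∑ s : Fin n → Bool, Real.exp (tiltE β m t g s))]
  simp [tiltP, mean, div_eq_inv_mul]

theorem phi_zero (hnn : ∀ i, 0 < nn i) :
    phi ξ nn β m 0 0 n = fieldLog (n := n) ξ nn β / n := by
  have h : ∀ᵐ ω ∂law ξ nn n, logZ ξ nn β m 0 0 ω =
      Real.log ((∑ x, joint (n := n) ξ nn (fun _ => 0) β ω.2 x) /
        ∑ l, leafW ξ.r ξ.m nn ω.2.1 l) := by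
    filter_upwards [ae_goodW] with ω hω
    have : Nonempty (Leaf ξ.r nn) := ⟨fun i => ⟨0, hnn i⟩⟩
    have := nonempty_st (ξ := ξ) (n := n) hnn
    have hW : 0 < ∑ l, leafW ξ.r ξ.m nn ω.2.1 l :=
      Finset.sum_pos (fun l _ => leafW_pos _ _ _ _ _ hω) Finset.univ_nonempty
    have hJ : 0 < ∑ x, joint (n := n) ξ nn (fun _ => 0) β ω.2 x :=
      Finset.sum_pos (fun x _ => mul_pos (leafW_pos _ _ _ _ _ hω) (Real.exp_pos _))
        Finset.univ_nonempty
    rw [Real.log_div hJ.ne' hW.ne', logZ]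
    congr 2
    refine Finset.sum_congr rfl fun x _ => ?_
    simp [joint, expo, interpH]
  rw [phi, integral_congr_ae h, law, integral_fun_snd fun z => Real.log
    ((∑ x, joint (n := n) ξ nn (fun _ => 0) β z x) / ∑ l, leafW ξ.r ξ.m nn z.1 l)]
  simp [fieldLog]

/-- Convexity in the tilt at the start of the interpolation. -/
theorem phi_zero_le (hn : n ≠ 0) (hnn : ∀ i, 0 < nn i) :
    phi ξ nn β m t 0 n ≤ phi ξ nn β m 0 0 n +
      t * (β / 2) * stateMean (n := n) ξ nn β m t 0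
        (fun g (x : Fin 1 → St ξ nn n) => bform m g (x 0).1 (x 0).1) := by
  have hn' : (0 : ℝ) < n := Nat.cast_pos.2 (Nat.pos_of_ne_zero hn)
  have hΦ : ∀ x : Fin 1 → St ξ nn n, Tame fun g => bform m g (x 0).1 (x 0).1 := fun x =>
    tame_bform' m _ _
  have hpt : ∀ᵐ ω ∂law ξ nn n, logZ ξ nn β m t 0 ω ≤ logZ ξ nn β m 0 0 ω +
      t * (β / 2) * (n : ℝ) * avg β m t 0
        (fun g (x : Fin 1 → St ξ nn n) => bform m g (x 0).1 (x 0).1) ω := by
    filter_upwards [ae_goodW] with ω hω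
    have := nonempty_st (ξ := ξ) (n := n) hnn
    rw [avg_one β m t 0 fun g x => bform m g x.1 x.1]
    set X : St ξ nn n → ℝ := fun x => t * (β / 2) * ((n : ℝ) * bform m ω.1 x.1 x.1) with hX
    have hJ := (convexOn_exp).map_sum_le (t := Finset.univ) (w := fun x => wgt β m t 0 ω x)
      (p := fun x => -X x) (fun x _ => wgt_nonneg hω β m t 0 x) (sum_wgt hnn hω β m t 0)
      (fun x _ => Set.mem_univ _)
    simp only [smul_eq_mul] at hJ
    set S := fun t => ∑ x : St ξ nn n, leafW ξ.r ξ.m nn ω.2.1 x.2 *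
      Real.exp (expo β m t 0 ω x) with hS
    have hpos : ∀ t, 0 < S t := fun t =>
      Finset.sum_pos (fun x _ => mul_pos (leafW_pos _ _ _ _ _ hω) (Real.exp_pos _))
        Finset.univ_nonempty
    have e : ∑ x, wgt β m t 0 ω x * Real.exp (-X x) = S 0 / S t := by
      simp only [wgt_eq_div, hS, Finset.sum_div, div_mul_eq_mul_div]
      refine Finset.sum_congr rfl fun x _ => ?_
      rw [mul_assoc, ← Real.exp_add]
      simp [expo, interpH, hX]
    rw [e, ← Real.le_log_iff_exp_le (div_pos (hpos 0) (hpos t)),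
      Real.log_div (hpos 0).ne' (hpos t).ne'] at hJ
    have e2 : ∑ x, wgt β m t 0 ω x * -X x =
        -(t * (β / 2) * (n : ℝ) * ∑ x, wgt β m t 0 ω x * bform m ω.1 x.1 x.1) := by
      rw [Finset.mul_sum, ← Finset.sum_neg_distrib]
      exact Finset.sum_congr rfl fun x _ => by simp only [hX]; ring
    rw [e2] at hJ
    simp only [logZ]
    simp only [hS] at hJ
    linarith
  have i2 := (integrable_avg (n := n) (ξ := ξ) (nn := nn) β m t 0 hΦ).const_mul
    (t * (β / 2) * (n : ℝ))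
  have h := integral_mono_ae (integrable_logZ β m t 0 hnn)
    ((integrable_logZ β m 0 0 hnn).fun_add i2) hpt
  rw [integral_add (integrable_logZ β m 0 0 hnn) i2, integral_const_mul,
    ← stateMean_eq β m t 0 hΦ] at h
  rw [phi, phi, div_add' _ _ _ hn'.ne', div_le_div_iff_of_pos_right hn']
  linarith

/-- The path at the meet, squared. -/
def qSq (g : Cfg n) (x : Fin 2 → St ξ nn n) : ℝ :=
  (fun _ : Cfg n => qm ξ nn (x 0).2 (x 1).2 ^ 2) g

lemma tame_qSq (x : Fin 2 → St ξ nn n) : Tame fun g => qSq (n := n) g x := Tame.const _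

lemma gapSq_eq : gapSq n ξ nn β m t θ = stateMean ξ nn β m t θ (ovl ξ nn (n := n)) -
    2 * stateMean ξ nn β m t θ (ovlQ ξ nn (n := n)) +
      stateMean ξ nn β m t θ (qSq (ξ := ξ) (nn := nn) (n := n)) := by
  have hT : ∀ x : Fin 2 → St ξ nn n, Tame fun g =>
      (bform 0 g (x 0).1 (x 1).1 - qm ξ nn (x 0).2 (x 1).2) ^ 2 := fun x =>
    Tame.pow (Tame.sub (tame_bform' 0 _ _) (Tame.const _)) 2
  show stateMean ξ nn β m t θ (fun g (x : Fin 2 → St ξ nn n) =>
    (bform 0 g (x 0).1 (x 1).1 - qm ξ nn (x 0).2 (x 1).2) ^ 2) = _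
  rw [stateMean_eq β m t θ hT, stateMean_eq β m t θ (tame_ovl ξ nn),
    stateMean_eq β m t θ (tame_ovlQ ξ nn), stateMean_eq β m t θ (tame_qSq (ξ := ξ) (nn := nn))]
  have i1 := integrable_avg (n := n) β m t θ (tame_ovl ξ nn)
  have i2 := (integrable_avg (n := n) β m t θ (tame_ovlQ ξ nn)).const_mul 2
  have i3 := integrable_avg (n := n) β m t θ (tame_qSq (ξ := ξ) (nn := nn))
  rw [← integral_const_mul, ← integral_sub i1 i2, ← integral_add (i1.sub' i2) i3]
  refine integral_congr_ae (.of_forall fun ω => ?_)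
  simp only [avg, ovl, ovlQ, qSq, Finset.mul_sum, ← Finset.sum_sub_distrib,
    ← Finset.sum_add_distrib]
  exact Finset.sum_congr rfl fun x _ => by ring

/-- The derivative of the interpolation. -/
theorem dphi_eq (hn : n ≠ 0) (hnn : ∀ i, 0 < nn i) :
    dphi ξ nn β m t θ n = β ^ 2 / 2 * (Real.sin θ * Real.cos θ) *
        (1 - 2 * ξ.q (Fin.last ξ.r) + stateMean ξ nn β m t θ (qSq (ξ := ξ) (nn := nn) (n := n)) -
          gapSq n ξ nn β m t θ) +
      t * (β ^ 2 / 2) * Real.cos θ * (stateMean ξ nn β m t θ (cr1 ξ nn m (n := n)) -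
        stateMean ξ nn β m t θ (cr2 ξ nn m (n := n))) := by
  have hn' : (n : ℝ) ≠ 0 := Nat.cast_ne_zero.2 hn
  have i1 : Integrable (fun ω : Rnd ξ nn n => β * Real.cos θ *
      ∑ x : St ξ nn n, wgt β m t θ ω x * energy ω.1 x.1) (law ξ nn n) := by
    refine Integrable.const_mul ?_ _
    simp only [← avg_one β m t θ (fun g x => energy g x.1)]
    exact integrable_avg β m t θ fun x => tame_energy' (x 0).1
  have i2 : Integrable (fun ω : Rnd ξ nn n => β * Real.sin θ *
      ∑ x : St ξ nn n, wgt β m t θ ω x * fieldE ξ nn ω.2.2 x.1 x.2) (law ξ nn n) := by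
    refine Integrable.const_mul ?_ _
    refine (integrable_finsetSum Finset.univ fun x _ => (integrable_fieldE x).abs).mono'
      (Finset.measurable_sum _ fun x _ => (measurable_wgt' β m t θ x).mul
        ((continuous_fieldE x.1 x.2).measurable.comp
          (measurable_snd.comp measurable_snd))).aestronglyMeasurable
      (ae_goodW.mono fun ω hω => ?_)
    rw [Real.norm_eq_abs]
    refine (Finset.abs_sum_le_sum_abs _ _).trans (Finset.sum_le_sum fun x _ => ?_)
    rw [abs_mul, abs_of_nonneg (wgt_nonneg hω β m t θ x)]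
    exact mul_le_of_le_one_left (abs_nonneg _)
      ((Finset.single_le_sum (fun y _ => wgt_nonneg hω β m t θ y) (Finset.mem_univ x)).trans
        (sum_wgt_le β m t θ))
  have e : ∀ ω : Rnd ξ nn n, dLogZ ξ nn β m t θ ω =
      β * Real.cos θ * (∑ x : St ξ nn n, wgt β m t θ ω x * energy ω.1 x.1) -
        β * Real.sin θ * (∑ x : St ξ nn n, wgt β m t θ ω x * fieldE ξ nn ω.2.2 x.1 x.2) := by
    intro ω
    simp only [dLogZ, Finset.mul_sum, ← Finset.sum_sub_distrib]
    exact Finset.sum_congr rfl fun x _ => by ring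
  rw [dphi, integral_congr_ae (.of_forall e), integral_sub i1 i2, integral_const_mul,
    integral_const_mul, mean_energy β m t θ hn hnn, mean_fieldE β m t θ hn hnn, gapSq_eq]
  field_simp
  ring

end Vale.Agent.P146.Div.Guerra
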